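import Vale.Agent.P141.H865.Res
import Vale.Agent.P141.H150.MvP
import Vale.Agent.P141.H585.Ev
import Vale.Agent.P141.H97b.BirthM

/-!
# P141, line W, end lemma (R5): the kernel of one box is the sum of the active components

A birth is an atom `v` on the cube of `q` of scale `K`, with carriers `S1, S2, S3`.  At scale
`k ≤ K` its main part is the atom `mn k`, cut by the carriers which are alive at scale `k`.  The
first two coordinates `x0`, `x1` are fixed; `G k` is the gauge on the remaining coordinates.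

* `kA`, `evO`, `acO`, `rsO`: the plane kernel of the shift `θ`, its events, its process;
* `actO`, `aO`, `bO`, `RO`: the active components at `x1` of the box `(k; n, m)`, their functions,
  the residual kernel;
* `ker_eq`: main part times gauge = sum of the active components + residual;
* `RO_eq_cut`: the residual with the edges cut at scale `k`.
-/

namespace Vale.Agent.P141.H865

open Finset
open Vale.Agent.P141.PL (Pt el iv ix mem_iv cb cx mem_cb ix_ix)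
open Vale.Agent.P141.PL.H315 (avg avg_nonneg Tri cube3 atm e12 e13 e23 mem_cube3)
open Vale.Agent.P141.PL.H560 (cs cs_of_mem cs_of_not_mem)
open Vale.Agent.P141.PL.H318 (a1)
open Vale.Agent.P141.H911
open Vale.Agent.P141.H585 (lvS mem_lvS lvS_anti mnA evt uT_eq23 cube3_eq)
open Vale.Agent.P141.H829 (ind ind_mem ind_not rst rs3)
open Vale.Agent.P141.H443 (comA comB cset mem_cset E2)
open Vale.Agent.P141.H97b (mcA mcB PPr)
open Vale.Agent.P141.H150

noncomputable section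

/-- A birth: scale, cube, atom, density level, carriers, coefficients of the two sides, parameters
of the plane process. -/
structure Bth where
  /-- the scale -/
  K : ℕ
  /-- the cube -/
  q : Pt
  /-- the atom -/
  v : Tri
  /-- the density level -/
  th : ℝ
  /-- the first carrier -/
  S1 : Finset ℤ
  /-- the second carrier -/
  S2 : Finset ℤ
  /-- the third carrier -/
  S3 : Finset ℤ
  /-- the coefficient of the first functions -/
  a : ℝ
  /-- the coefficient of the second functions -/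
  b : ℝ
  /-- the penalty -/
  cp : ℝ
  /-- the reset level -/
  xi : ℝ
  /-- the energy level -/
  et : ℝ

/-- the main atom at scale `k` -/
def Bth.mn (B : Bth) (k : ℕ) : Tri := mnA B.th B.S1 B.S2 B.S3 B.K k B.v

/-- the plane kernel of the shift `θ` -/
def kA (B : Bth) (G : ℕ → ℤ → ℤ → ℝ) (θ : Pt) (k : ℕ) (x y : ℤ) : ℝ :=
  (uT B.K B.q θ (B.mn k)).2.2 (x, y) * G k x y

/-- the event squares of the plane kernel -/
def evO (B : Bth) (ex : ℕ → ℤ → ℤ → Prop) (θ : Pt) (k : ℕ) (n m : ℤ) : Prop :=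
  evt B.th B.S2 B.K θ.2.1 k n ∨ evt B.th B.S3 B.K θ.2.2 k m ∨ ex k n m

theorem kA_eq {B : Bth} {G : ℕ → ℤ → ℤ → ℝ} {ex : ℕ → ℤ → ℤ → Prop}
    (hG : ∀ k n m, ¬ ex k n m → ∀ x ∈ iv k n, ∀ y ∈ iv k m, G k x y = G (k + 1) x y) (θ : Pt)
    (k : ℕ) (n m : ℤ) (h : ¬ evO B ex θ k n m) (x : ℤ) (hx : x ∈ iv k n) (y : ℤ)
    (hy : y ∈ iv k m) : kA B G θ k x y = kA B G θ (k + 1) x y := by
  unfold evO at h
  push Not at h
  unfold kA Bth.mn
  rw [uT_eq23 B.q θ h.1 h.2.1 hx hy, hG k n m h.2.2 x hx y hy]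

/-- the state of the plane process -/
def sO (B : Bth) (G : ℕ → ℤ → ℤ → ℝ) (ex : ℕ → ℤ → ℤ → Prop) (θ : Pt) (k : ℕ) (n m : ℤ) :
    Option ℕ := Mv.st (kA B G θ) B.cp B.xi B.et (fun _ _ _ => True) (evO B ex θ) B.K k n m

/-- the active components of the plane process -/
def acO (B : Bth) (G : ℕ → ℤ → ℤ → ℝ) (ex : ℕ → ℤ → ℤ → Prop) (θ : Pt) (k : ℕ) (n m : ℤ) :
    Finset (ℕ × ℤ × ℤ) :=
  Mv.actH (kA B G θ) B.cp B.xi B.et (fun _ _ _ => True) (evO B ex θ) B.K k n m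

/-- the residual of the plane process -/
def rsO (B : Bth) (G : ℕ → ℤ → ℤ → ℝ) (ex : ℕ → ℤ → ℤ → Prop) (θ : Pt) (k : ℕ) (x y : ℤ) : ℝ :=
  Mv.RsH (kA B G θ) B.cp B.xi B.et (fun _ _ _ => True) (evO B ex θ) B.K k x y

/-- the first coordinate is alive at scale `k` -/
def al1 (B : Bth) (θ : Pt) (k : ℕ) (x1 : ℤ) : Prop := x1 + θ.1 ∈ lvS B.th B.S1 B.K k

/-! ### The edges -/

/-- a point of the box `(k; n, m)` at `x1` -/
def ptO (k : ℕ) (x1 n m : ℤ) : Pt := (x1, 2 ^ k * n, 2 ^ k * m)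

theorem ix_mul (k : ℕ) (n : ℤ) : ix k (2 ^ k * n) = n := by
  have h : (2 : ℤ) ^ k ≠ 0 := by positivity
  unfold ix
  rw [Int.mul_ediv_cancel_left _ h]

theorem cx_ptO {k : ℕ} {x1 n m x2 x3 : ℤ} (h2 : x2 ∈ iv k n) (h3 : x3 ∈ iv k m) {K : ℕ}
    (hk : k ≤ K) : cx K (ptO k x1 n m) = cx K (x1, x2, x3) := by
  obtain ⟨l, rfl⟩ := Nat.exists_eq_add_of_le hk
  rw [mem_iv] at h2 h3
  unfold cx ptO
  simp only
  rw [← ix_ix k l (2 ^ k * n), ← ix_ix k l (2 ^ k * m), ix_mul, ix_mul, ← ix_ix k l x2,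
    ← ix_ix k l x3, h2, h3]

/-- the cell of the box, in terms of the indices -/
theorem cx_ptO' {k K : ℕ} (hk : k ≤ K) (x1 n m : ℤ) :
    cx K (ptO k x1 n m) = (ix K x1, ix (K - k) n, ix (K - k) m) := by
  obtain ⟨l, rfl⟩ := Nat.exists_eq_add_of_le hk
  unfold cx ptO
  simp only
  rw [← ix_ix k l (2 ^ k * n), ← ix_ix k l (2 ^ k * m), ix_mul, ix_mul, Nat.add_sub_cancel_left]

theorem win_congr {K : ℕ} {a a' b : ℤ} (h : ix K a = ix K a') : win K a b = win K a' b := by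
  unfold ix at h
  unfold win
  rw [h]

/-- the offsets only depend on the cell -/
theorem Th_congr (c : Pt) {K : ℕ} {p p' : Pt} (q : Pt) (h : cx K p = cx K p') :
    Th c K p q = Th c K p' q := by
  unfold cx at h
  simp only [Prod.mk.injEq] at h
  unfold Th
  rw [win_congr h.1, win_congr h.2.1, win_congr h.2.2]

theorem mem_ptO {k : ℕ} {x1 n m x2 x3 : ℤ} (h2 : x2 ∈ iv k n) (h3 : x3 ∈ iv k m) {K : ℕ}
    (hk : k ≤ K) : ((x1, x2, x3) : Pt) ∈ cube3 K (ptO k x1 n m) := by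
  rw [cube3_eq, mem_cb, cx_ptO h2 h3 hk]

/-- **The cut edges**: only the indicator of the first vertex and the kernel are cut. -/
theorem edge_cut (B : Bth) (θ : Pt) (k : ℕ) (x1 x2 x3 : ℤ) :
    atm (uT B.K B.q θ (B.mn k)) (x1, x2, x3) =
      ind (lvS B.th B.S1 B.K k) (x1 + θ.1) * ((uT B.K B.q θ B.v).1 (x1, x2) *
        (uT B.K B.q θ B.v).2.1 (x1, x3) * (uT B.K B.q θ (B.mn k)).2.2 (x2, x3)) := by
  set Q := PL.H315.iv B.K B.q.1 with hQ
  set Q2 := PL.H315.iv B.K B.q.2.1 with hQ2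
  set Q3 := PL.H315.iv B.K B.q.2.2 with hQ3
  have key : ∀ (S : Finset ℤ) (x : ℤ), ind S x * ind S x = ind S x := by
    intro S x
    by_cases h : x ∈ S
    · rw [ind_mem h]; ring
    · rw [ind_not h]; ring
  unfold atm e12 e13 e23 uT Bth.mn mnA rs3
  simp only
  rw [← hQ, ← hQ2, ← hQ3]
  by_cases h1 : x1 + θ.1 ∈ Q
  · by_cases h2 : x2 + θ.2.1 ∈ Q2
    · by_cases h3 : x3 + θ.2.2 ∈ Q3
      · have g1 : ((x1, x2).1 + (θ.1, θ.2.1).1, (x1, x2).2 + (θ.1, θ.2.1).2) ∈ Q ×ˢ Q2 :=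
          mem_product.mpr ⟨h1, h2⟩
        have g2 : ((x1, x3).1 + (θ.1, θ.2.2).1, (x1, x3).2 + (θ.1, θ.2.2).2) ∈ Q ×ˢ Q3 :=
          mem_product.mpr ⟨h1, h3⟩
        have g3 : ((x2, x3).1 + (θ.2.1, θ.2.2).1, (x2, x3).2 + (θ.2.1, θ.2.2).2) ∈ Q2 ×ˢ Q3 :=
          mem_product.mpr ⟨h2, h3⟩
        rw [cs_of_mem g1, cs_of_mem g2, cs_of_mem g3, cs_of_mem g1, cs_of_mem g2]
        unfold rst
        simp only
        have k1 := key (lvS B.th B.S1 B.K k) (x1 + θ.1)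
        have k2 := key (lvS B.th B.S2 B.K k) (x2 + θ.2.1)
        have k3 := key (lvS B.th B.S3 B.K k) (x3 + θ.2.2)
        set i1 := ind (lvS B.th B.S1 B.K k) (x1 + θ.1)
        set i2 := ind (lvS B.th B.S2 B.K k) (x2 + θ.2.1)
        set i3 := ind (lvS B.th B.S3 B.K k) (x3 + θ.2.2)
        set d1 := B.v.1 (x1 + θ.1, x2 + θ.2.1)
        set d2 := B.v.2.1 (x1 + θ.1, x3 + θ.2.2)
        set d3 := B.v.2.2 (x2 + θ.2.1, x3 + θ.2.2)
        calc i1 * i2 * d1 * (i1 * i3 * d2) * (i2 * i3 * d3)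
            = (i1 * i1) * (i2 * i2) * (i3 * i3) * (d1 * d2 * d3) := by ring
          _ = i1 * i2 * i3 * (d1 * d2 * d3) := by rw [k1, k2, k3]
          _ = _ := by ring
      · have g2 : ((x1, x3).1 + (θ.1, θ.2.2).1, (x1, x3).2 + (θ.1, θ.2.2).2) ∉ Q ×ˢ Q3 :=
          fun h => h3 (mem_product.mp h).2
        rw [cs_of_not_mem g2, cs_of_not_mem g2]; ring
    · have g1 : ((x1, x2).1 + (θ.1, θ.2.1).1, (x1, x2).2 + (θ.1, θ.2.1).2) ∉ Q ×ˢ Q2 :=
        fun h => h2 (mem_product.mp h).2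
      rw [cs_of_not_mem g1, cs_of_not_mem g1]; ring
  · have g1 : ((x1, x2).1 + (θ.1, θ.2.1).1, (x1, x2).2 + (θ.1, θ.2.1).2) ∉ Q ×ˢ Q2 :=
      fun h => h1 (mem_product.mp h).1
    rw [cs_of_not_mem g1, cs_of_not_mem g1]; ring

/-! ### The components of a box -/

variable {ι : Type*}

/-- the planes over the box `(k; n, m)` at `x1` -/
def plO (c : Pt) (B : ι → Bth) (I : Finset ι) (x1 : ℤ) (k : ℕ) (n m : ℤ) :
    Finset (ι × Pt × Pt) := by
  classical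
  exact (I.filter fun i => k ≤ (B i).K).biUnion fun i =>
    ((Th c (B i).K (ptO k x1 n m) (B i).q).filter fun θ => al1 (B i) θ k x1).image
      fun θ => (i, cx (B i).K (ptO k x1 n m), θ)

theorem mem_plO {c : Pt} {B : ι → Bth} {I : Finset ι} {x1 : ℤ} {k : ℕ} {n m : ℤ}
    {p : ι × Pt × Pt} : p ∈ plO c B I x1 k n m ↔ p.1 ∈ I ∧ k ≤ (B p.1).K ∧
      p.2.1 = cx (B p.1).K (ptO k x1 n m) ∧ p.2.2 ∈ Th c (B p.1).K (ptO k x1 n m) (B p.1).q ∧
      al1 (B p.1) p.2.2 k x1 := by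
  classical
  unfold plO
  simp only [mem_biUnion, mem_filter, mem_image]
  constructor
  · rintro ⟨i, ⟨hi, hk⟩, θ, ⟨h1, h2⟩, rfl⟩
    exact ⟨hi, hk, rfl, h1, h2⟩
  · rintro ⟨hi, hk, h1, h2, h3⟩
    refine ⟨p.1, ⟨hi, hk⟩, p.2.2, ⟨h2, h3⟩, ?_⟩
    rw [← h1]

open Classical in
theorem sum_plO {c : Pt} {B : ι → Bth} {I : Finset ι} {x1 : ℤ} {k : ℕ} {n m : ℤ}
    (f : ι × Pt × Pt → ℝ) : ∑ p ∈ plO c B I x1 k n m, f p =
      ∑ i ∈ I.filter (fun i => k ≤ (B i).K), ∑ θ ∈ Th c (B i).K (ptO k x1 n m) (B i).q,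
        if al1 (B i) θ k x1 then f (i, cx (B i).K (ptO k x1 n m), θ) else 0 := by
  unfold plO
  rw [sum_biUnion]
  · refine sum_congr rfl fun i _ => ?_
    rw [sum_image, sum_filter]
    intro θ _ η _ h
    simpa using h
  · intro i _ j _ hij
    rw [Function.onFun, disjoint_left]
    rintro w hw hw'
    obtain ⟨θ, _, rfl⟩ := mem_image.mp hw
    obtain ⟨η, _, h⟩ := mem_image.mp hw'
    simp only [Prod.mk.injEq] at h
    exact hij h.1.symm

/-- the embedding of the components of a plane -/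
def eO (p : ι × Pt × Pt) : (ℕ × ℤ × ℤ) ↪ (ι × Pt × Pt) × (ℕ × ℤ × ℤ) :=
  ⟨fun j => (p, j), fun _ _ h => (Prod.mk.inj h).2⟩

/-- **the active components** at `x1` of the box `(k; n, m)` -/
def actO (c : Pt) (B : ι → Bth) (G : ℕ → ℤ → ℤ → ℝ) (ex : ℕ → ℤ → ℤ → Prop) (I : Finset ι)
    (x1 : ℤ) (k : ℕ) (n m : ℤ) : Finset ((ι × Pt × Pt) × (ℕ × ℤ × ℤ)) := by
  classical
  exact (plO c B I x1 k n m).biUnion fun p => (acO (B p.1) G ex p.2.2 k n m).map (eO p)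

theorem mem_actO {c : Pt} {B : ι → Bth} {G : ℕ → ℤ → ℤ → ℝ} {ex : ℕ → ℤ → ℤ → Prop}
    {I : Finset ι} {x1 : ℤ} {k : ℕ} {n m : ℤ} {w : (ι × Pt × Pt) × (ℕ × ℤ × ℤ)} :
    w ∈ actO c B G ex I x1 k n m ↔ w.1 ∈ plO c B I x1 k n m ∧
      w.2 ∈ acO (B w.1.1) G ex w.1.2.2 k n m := by
  classical
  unfold actO
  simp only [mem_biUnion, mem_map]
  constructor
  · rintro ⟨p, hp, j, hj, rfl⟩
    exact ⟨hp, hj⟩
  · rintro ⟨h1, h2⟩
    exact ⟨w.1, h1, w.2, h2, rfl⟩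

theorem sum_actO {c : Pt} {B : ι → Bth} {G : ℕ → ℤ → ℤ → ℝ} {ex : ℕ → ℤ → ℤ → Prop}
    {I : Finset ι} {x1 : ℤ} {k : ℕ} {n m : ℤ} (f : (ι × Pt × Pt) × (ℕ × ℤ × ℤ) → ℝ) :
    ∑ w ∈ actO c B G ex I x1 k n m, f w = ∑ p ∈ plO c B I x1 k n m,
      ∑ j ∈ acO (B p.1) G ex p.2.2 k n m, f (p, j) := by
  classical
  unfold actO
  rw [sum_biUnion]
  · refine sum_congr rfl fun p _ => ?_
    rw [sum_map]
    rfl
  · intro p _ p' _ hpp
    rw [Function.onFun, disjoint_left]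
    rintro w hw hw'
    obtain ⟨j, _, rfl⟩ := mem_map.mp hw
    obtain ⟨j', _, h⟩ := mem_map.mp hw'
    exact hpp (Prod.mk.inj h).1.symm

/-- the edge with the coefficient, first side -/
def dA (B : ι → Bth) (p : ι × Pt × Pt) (x1 x : ℤ) : ℝ :=
  (B p.1).a * (uT (B p.1).K (B p.1).q p.2.2 (B p.1).v).1 (x1, x)

/-- the edge with the coefficient, second side -/
def dB (B : ι → Bth) (p : ι × Pt × Pt) (x1 x : ℤ) : ℝ :=
  (B p.1).b * (uT (B p.1).K (B p.1).q p.2.2 (B p.1).v).2.1 (x1, x)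

/-- **the first functions** of the components -/
def aO (B : ι → Bth) (G : ℕ → ℤ → ℤ → ℝ) (x1 : ℤ) (w : (ι × Pt × Pt) × (ℕ × ℤ × ℤ)) (x : ℤ) :
    ℝ := dA B w.1 x1 x * mcA (kA (B w.1.1) G w.1.2.2) (B w.1.1).cp w.2 x

/-- **the second functions** of the components -/
def bO (B : ι → Bth) (G : ℕ → ℤ → ℤ → ℝ) (x1 : ℤ) (w : (ι × Pt × Pt) × (ℕ × ℤ × ℤ)) (x : ℤ) :
    ℝ := dB B w.1 x1 x * mcB (kA (B w.1.1) G w.1.2.2) (B w.1.1).cp w.2 x

open Classical in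
/-- **the residual kernel** at `x1` of the box `(k; n, m)` -/
def RO (c : Pt) (B : ι → Bth) (G : ℕ → ℤ → ℤ → ℝ) (ex : ℕ → ℤ → ℤ → Prop) (I : Finset ι)
    (x1 : ℤ) (k : ℕ) (n m : ℤ) (x2 x3 : ℤ) : ℝ :=
  resK c (ptO k x1 n m) (I.filter fun i => k ≤ (B i).K) (fun i => (B i).K) (fun i => (B i).q)
    (fun i => (B i).v) (fun i => (B i).a * (B i).b)
    (fun i θ x y => if al1 (B i) θ k x1 then rsO (B i) G ex θ k x y else 0) x1 x2 x3

open Classical in
/-- the main part at scale `k` -/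
def mainO (c : Pt) (B : ι → Bth) (I : Finset ι) (k : ℕ) (s : ℤ) : ℝ :=
  ∑ i ∈ I.filter (fun i => k ≤ (B i).K), ((B i).a * (B i).b) *
    a1 c (B i).K ((B i).q, (B i).mn k) s

/-- **The kernel of one box**: main part times gauge = active components + residual. -/
theorem ker_eq {c : Pt} {B : ι → Bth} {G : ℕ → ℤ → ℤ → ℝ} {ex : ℕ → ℤ → ℤ → Prop}
    {I : Finset ι} (hc : ∀ i ∈ I, 0 ≤ (B i).cp)
    (hG : ∀ k n m, ¬ ex k n m → ∀ x ∈ iv k n, ∀ y ∈ iv k m, G k x y = G (k + 1) x y)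
    {k : ℕ} {n m x1 x2 x3 : ℤ} (h2 : x2 ∈ iv k n) (h3 : x3 ∈ iv k m) :
    mainO c B I k (el c (x1, x2, x3)) * G k x2 x3 =
      (∑ w ∈ actO c B G ex I x1 k n m, aO B G x1 w x2 * bO B G x1 w x3) +
        RO c B G ex I x1 k n m x2 x3 := by
  classical
  rw [sum_actO]
  have h4 : ∀ p ∈ plO c B I x1 k n m,
      (∑ j ∈ acO (B p.1) G ex p.2.2 k n m, aO B G x1 (p, j) x2 * bO B G x1 (p, j) x3) =
      dA B p x1 x2 * dB B p x1 x3 *
        (kA (B p.1) G p.2.2 k x2 x3 - rsO (B p.1) G ex p.2.2 k x2 x3) := by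
    intro p hp
    rw [mem_plO] at hp
    have h5 := Mv.aliveH_eq (A := kA (B p.1) G p.2.2) (ξ := (B p.1).xi) (η := (B p.1).et)
      (us := fun _ _ _ => True) (ev := evO (B p.1) ex p.2.2) (hc p.1 hp.1) (kA_eq hG p.2.2)
      hp.2.1 h2 h3
    unfold rsO
    rw [h5, mul_sum]
    refine sum_congr rfl fun j _ => ?_
    unfold aO bO mcA mcB
    simp only
    ring
  rw [sum_congr rfl h4, sum_plO]
  unfold RO resK mainO
  rw [← sum_add_distrib, sum_mul]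
  refine sum_congr rfl fun i hi => ?_
  rw [mem_filter] at hi
  rw [a1_shift c (B i).K (B i).q ((B i).mn k) (mem_ptO (x1 := x1) h2 h3 hi.2), mul_sum, sum_mul,
    mul_sum, ← sum_add_distrib]
  refine sum_congr rfl fun θ _ => ?_
  rw [edge_cut]
  unfold dA dB
  simp only
  by_cases h6 : al1 (B i) θ k x1
  · rw [if_pos h6, if_pos h6, ind_mem h6]
    unfold kA
    ring
  · rw [if_neg h6, if_neg h6, ind_not h6]
    ring

end

end Vale.Agent.P141.H865
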