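import Vale.Agent.P141.H865.Ker2
import Vale.Agent.P141.H97b.BirthC

/-!
# P141, line W, end lemma (R5), part 3: the window sets in the letters of `H97b.BirthC`

The planes are `p = (i, cell, θ)`; `mvO`, `mvRO` are `mvC`, `mvR` of the plane, `alC` the alive
pairs.  No root conditions.

* `pclO`: the rules `PCl`;
* `WB` (tree of the third coordinate), `WA` (tree of the second coordinate): the window sets of a
  finite family of planes; `mem_WB`, `mem_WA`, `act_sub_WB`, `act_sub_WA`;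
* `planes c B I C`: the family; `Th_pt`: the offsets do not depend on `x1` in its cell.
-/

namespace Vale.Agent.P141.H865

open Finset
open Vale.Agent.P141.PL (Pt el iv ix mem_iv cb cx mem_cb ix_ix self_mem_iv)
open Vale.Agent.P141.H911
open Vale.Agent.P141.H585 (lvS mem_lvS lvS_anti)
open Vale.Agent.P141.H443 (comA comB cset mem_cset E2)
open Vale.Agent.P141.H97b (mcA mcB PCl pcl_mv mvC mvR winM mem_winM uF mem_uF wn mt wn_up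
  self_mem_wn)
open Vale.Agent.P141.H150

noncomputable section

variable {ι : Type*}

/-- the process of the plane `p` on its cell -/
def mvO (B : ι → Bth) (G : ℕ → ℤ → ℤ → ℝ) (ex : ℕ → ℤ → ℤ → Prop) (p : ι × Pt × Pt) :
    ℕ → ℤ → ℤ → Finset (ℕ × ℤ × ℤ) :=
  mvC (kA (B p.1) G p.2.2) (B p.1).cp (B p.1).xi (B p.1).et (fun _ _ _ => True)
    (evO (B p.1) ex p.2.2) (B p.1).K p.2.1.2.1 p.2.1.2.2

/-- the birth squares of the plane `p` -/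
def mvRO (B : ι → Bth) (G : ℕ → ℤ → ℤ → ℝ) (ex : ℕ → ℤ → ℤ → Prop) (p : ι × Pt × Pt) :
    ℕ → ℤ → ℤ → Prop :=
  mvR (kA (B p.1) G p.2.2) (B p.1).cp (B p.1).xi (B p.1).et (fun _ _ _ => True)
    (evO (B p.1) ex p.2.2) (B p.1).K p.2.1.2.1 p.2.1.2.2

/-- the alive pairs of the plane `p` -/
def alC (B : ι → Bth) (p : ι × Pt × Pt) (k : ℕ) (x1 _n _m : ℤ) : Prop :=
  al1 (B p.1) p.2.2 k x1 ∧ ix (B p.1).K x1 = p.2.1.1

/-- **Every plane obeys the rules.** -/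
theorem pclO (B : ι → Bth) (G : ℕ → ℤ → ℤ → ℝ) (ex : ℕ → ℤ → ℤ → Prop) (p : ι × Pt × Pt) :
    PCl (mvO B G ex p) cset (fun j => j.1) (mvRO B G ex p) (alC B p) (B p.1).K p.2.1.2.1
      p.2.1.2.2 :=
  pcl_mv fun _ _ _ _ _ h => ⟨lvS_anti (Nat.le_succ _) h.1, h.2⟩

theorem mem_mvO {B : ι → Bth} {G : ℕ → ℤ → ℤ → ℝ} {ex : ℕ → ℤ → ℤ → Prop} {p : ι × Pt × Pt}
    {k : ℕ} {n m : ℤ} {j : ℕ × ℤ × ℤ} : j ∈ mvO B G ex p k n m ↔
      (k ≤ (B p.1).K ∧ ix ((B p.1).K - k) n = p.2.1.2.1 ∧ ix ((B p.1).K - k) m = p.2.1.2.2) ∧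
        j ∈ acO (B p.1) G ex p.2.2 k n m := by
  have e1 : ∀ a b : ℤ, a ∈ iv ((B p.1).K - k) b ↔ ix ((B p.1).K - k) a = b := fun _ _ => mem_iv
  rw [← e1, ← e1]
  unfold mvO mvC
  split_ifs with h
  · exact ⟨fun h1 => ⟨h, h1⟩, fun h1 => h1.2⟩
  · exact ⟨fun h1 => absurd h1 (notMem_empty _), fun h1 => absurd h1.1 h⟩

/-- membership in the process of a plane on its cell = membership in the active set of the box -/
theorem mem_actO_iff {c : Pt} {B : ι → Bth} {G : ℕ → ℤ → ℤ → ℝ} {ex : ℕ → ℤ → ℤ → Prop}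
    {I : Finset ι} {x1 : ℤ} {k : ℕ} {n m : ℤ} {w : (ι × Pt × Pt) × (ℕ × ℤ × ℤ)}
    (h1 : w.1.1 ∈ I) (h2 : w.1.2.2 ∈ Th c (B w.1.1).K (2 ^ (B w.1.1).K * w.1.2.1.1,
      2 ^ (B w.1.1).K * w.1.2.1.2.1, 2 ^ (B w.1.1).K * w.1.2.1.2.2) (B w.1.1).q) :
    w ∈ actO c B G ex I x1 k n m ↔ alC B w.1 k x1 n m ∧ w.2 ∈ mvO B G ex w.1 k n m := by
  rw [mem_actO, mem_plO, mem_mvO]
  constructor
  · rintro ⟨⟨_, h4, h5, _, h7⟩, h8⟩
    have h9 := h5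
    rw [cx_ptO' h4] at h9
    refine ⟨⟨h7, ?_⟩, ⟨h4, ?_, ?_⟩, h8⟩
    · rw [h9]
    · rw [h9]
    · rw [h9]
  · rintro ⟨⟨h3, h4⟩, ⟨h5, h6, h7⟩, h8⟩
    have e1 : w.1.2.1 = cx (B w.1.1).K (ptO k x1 n m) := by
      rw [cx_ptO' h5, h6, h7, h4]
    refine ⟨⟨h1, h5, e1, ?_, h3⟩, h8⟩
    rwa [Th_congr c (B w.1.1).q (p' := ptO k x1 n m) (by rw [cx_corner, e1])] at h2

open Classical in
/-- **the window sets** of the tree of the third coordinate -/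
def WB (B : ι → Bth) (G : ℕ → ℤ → ℤ → ℝ) (ex : ℕ → ℤ → ℤ → Prop) (Q : Finset (ι × Pt × Pt))
    (o x0 x1 : ℤ) (k : ℕ) (b : ℤ) : Finset ((ι × Pt × Pt) × (ℕ × ℤ × ℤ)) :=
  uF Q eO (fun p => winM (mvO B G ex p) (alC B p) o x0 x1) k b

open Classical in
/-- **the window sets** of the tree of the second coordinate -/
def WA (B : ι → Bth) (G : ℕ → ℤ → ℤ → ℝ) (ex : ℕ → ℤ → ℤ → Prop) (Q : Finset (ι × Pt × Pt))
    (o x0 x1 : ℤ) (k : ℕ) (b : ℤ) : Finset ((ι × Pt × Pt) × (ℕ × ℤ × ℤ)) :=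
  uF Q eO (fun p => winM (fun k m n => mvO B G ex p k n m)
    (fun k x1 m n => alC B p k x1 n m) o x0 x1) k b

/-- the window sets are unions of active sets of boxes -/
theorem mem_WB {c : Pt} {B : ι → Bth} {G : ℕ → ℤ → ℤ → ℝ} {ex : ℕ → ℤ → ℤ → Prop}
    {I : Finset ι} {C : ι → Finset Pt} {o x0 x1 : ℤ} {k : ℕ} {b : ℤ}
    {w : (ι × Pt × Pt) × (ℕ × ℤ × ℤ)} :
    w ∈ WB B G ex (QO c B I C) o x0 x1 k b ↔ w.1 ∈ QO c B I C ∧
      ∃ n ∈ wn o x0 x1 k b, w ∈ actO c B G ex I x1 k n b := by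
  classical
  unfold WB
  rw [mem_uF]
  constructor
  · rintro ⟨p, hp, j, hj, rfl⟩
    obtain ⟨n, hn, h1, h2⟩ := mem_winM.1 hj
    have hq := mem_QO.1 hp
    exact ⟨hp, n, hn, (mem_actO_iff (w := eO p j) hq.1 hq.2.2).2 ⟨h1, h2⟩⟩
  · rintro ⟨hp, n, hn, hw⟩
    have hq := mem_QO.1 hp
    have h1 := (mem_actO_iff hq.1 hq.2.2).1 hw
    exact ⟨w.1, hp, w.2, mem_winM.2 ⟨n, hn, h1.1, h1.2⟩, rfl⟩

/-- the window sets are unions of active sets of boxes -/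
theorem mem_WA {c : Pt} {B : ι → Bth} {G : ℕ → ℤ → ℤ → ℝ} {ex : ℕ → ℤ → ℤ → Prop}
    {I : Finset ι} {C : ι → Finset Pt} {o x0 x1 : ℤ} {k : ℕ} {b : ℤ}
    {w : (ι × Pt × Pt) × (ℕ × ℤ × ℤ)} :
    w ∈ WA B G ex (QO c B I C) o x0 x1 k b ↔ w.1 ∈ QO c B I C ∧
      ∃ m ∈ wn o x0 x1 k b, w ∈ actO c B G ex I x1 k b m := by
  classical
  unfold WA
  rw [mem_uF]
  constructor
  · rintro ⟨p, hp, j, hj, rfl⟩
    obtain ⟨n, hn, h1, h2⟩ := mem_winM.1 hj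
    have hq := mem_QO.1 hp
    exact ⟨hp, n, hn, (mem_actO_iff (w := eO p j) hq.1 hq.2.2).2 ⟨h1, h2⟩⟩
  · rintro ⟨hp, n, hn, hw⟩
    have hq := mem_QO.1 hp
    have h1 := (mem_actO_iff hq.1 hq.2.2).1 hw
    exact ⟨w.1, hp, w.2, mem_winM.2 ⟨n, hn, h1.1, h1.2⟩, rfl⟩

/-- the active set of a box in the window is in the window set -/
theorem act_sub_WB {c : Pt} {B : ι → Bth} {G : ℕ → ℤ → ℤ → ℝ} {ex : ℕ → ℤ → ℤ → Prop}
    {I : Finset ι} {C : ι → Finset Pt} {o x0 x1 : ℤ} {k : ℕ} {n b : ℤ}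
    (hn : n ∈ wn o x0 x1 k b)
    (hC : ∀ i ∈ I, k ≤ (B i).K → cx (B i).K (ptO k x1 n b) ∈ C i) :
    actO c B G ex I x1 k n b ⊆ WB B G ex (QO c B I C) o x0 x1 k b := by
  intro w hw
  rw [mem_WB]
  exact ⟨plO_sub_QO hC (mem_actO.1 hw).1, n, hn, hw⟩

/-- the active set of a box in the window is in the window set -/
theorem act_sub_WA {c : Pt} {B : ι → Bth} {G : ℕ → ℤ → ℤ → ℝ} {ex : ℕ → ℤ → ℤ → Prop}
    {I : Finset ι} {C : ι → Finset Pt} {o x0 x1 : ℤ} {k : ℕ} {b m : ℤ}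
    (hm : m ∈ wn o x0 x1 k b)
    (hC : ∀ i ∈ I, k ≤ (B i).K → cx (B i).K (ptO k x1 b m) ∈ C i) :
    actO c B G ex I x1 k b m ⊆ WA B G ex (QO c B I C) o x0 x1 k b := by
  intro w hw
  rw [mem_WA]
  exact ⟨plO_sub_QO hC (mem_actO.1 hw).1, m, hm, hw⟩

/-- the offsets over a box do not depend on `x1` in its cell -/
theorem Th_pt (c : Pt) {k K : ℕ} (hk : k ≤ K) (q : Pt) {x1 m1 : ℤ} (h1 : x1 ∈ iv k m1)
    (n m : ℤ) : Th c K (ptO k x1 n m) q = Th c K (2 ^ k * m1, 2 ^ k * n, 2 ^ k * m) q := by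
  refine Th_congr c q ?_
  rw [cx_ptO' hk]
  obtain ⟨l, rfl⟩ := Nat.exists_eq_add_of_le hk
  unfold cx
  simp only
  rw [← ix_ix k l x1, mem_iv.1 h1, ← ix_ix k l (2 ^ k * m1), ← ix_ix k l (2 ^ k * n),
    ← ix_ix k l (2 ^ k * m), ix_mul, ix_mul, ix_mul, Nat.add_sub_cancel_left]

/-- the functions of the components in the letters of `H97b.BirthC` -/
theorem aO_eq (B : ι → Bth) (G : ℕ → ℤ → ℤ → ℝ) (p : ι × Pt × Pt) (x1 : ℤ) (j : ℕ × ℤ × ℤ)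
    (x : ℤ) : aO B G x1 (eO p j) x = dA B p x1 x * mcA (kA (B p.1) G p.2.2) (B p.1).cp j x := rfl

@[inherit_doc aO_eq]
theorem bO_eq (B : ι → Bth) (G : ℕ → ℤ → ℤ → ℝ) (p : ι × Pt × Pt) (x1 : ℤ) (j : ℕ × ℤ × ℤ)
    (x : ℤ) : bO B G x1 (eO p j) x = dB B p x1 x * mcB (kA (B p.1) G p.2.2) (B p.1).cp j x := rfl

end

end Vale.Agent.P141.H865
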