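import Vale.Agent.P141.H865.Ker3
import Vale.Agent.P141.H606.TKer
import Vale.Agent.P141.H911.Coef

/-!
# P141, line W, end lemma: the family of births in the letters of `H606.TKer`

`σ` is the order of the fibres, `c = lc σ 0`, the gauge is the slot `σ 1` on the fibre.
* `KrO`, `RrO`: kernel part and residual part, functions of the point; `split_eq`: the hypothesis
  of `TT_split`;
* `kern_eq`: the kernel part on a box is the sum of the active components of the box;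
* `fibD`, `fibI`: the data of one fibre and `FibOK`.
-/

namespace Vale.Agent.P141.H865

open Finset
open Vale.Agent.P141.PL (Pt el iv ix mem_iv cb cx mem_cb ix_ix self_mem_iv hs)
open Vale.Agent.P141.PL.H315 (avg)
open Vale.Agent.P141.H337 (ivm av2)
open Vale.Agent.P141.H911
open Vale.Agent.P141.H606
open Vale.Agent.P141.H97b (wn self_mem_wn)

noncomputable section

variable {ι : Type*}

/-- the kernel part at a point -/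
def KrO (c : Pt) (B : ι → Bth) (G : ℤ → ℕ → ℤ → ℤ → ℝ) (ex : ℤ → ℕ → ℤ → ℤ → Prop)
    (I : Finset ι) (k : ℕ) (x0 x1 x2 x3 : ℤ) : ℝ :=
  kS (actO c B (G x0) (ex x0) I x1 k (ix k x2) (ix k x3)) (aO B (G x0) x1) (bO B (G x0) x1) x2 x3

/-- the residual part at a point -/
def RrO (c : Pt) (B : ι → Bth) (G : ℤ → ℕ → ℤ → ℤ → ℝ) (ex : ℤ → ℕ → ℤ → ℤ → Prop)
    (I : Finset ι) (k : ℕ) (x0 x1 x2 x3 : ℤ) : ℝ :=
  RO c B (G x0) (ex x0) I x1 k (ix k x2) (ix k x3) x2 x3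

/-- the two parts: main part times gauge, at every point -/
theorem main_split {c : Pt} {B : ι → Bth} {G : ℤ → ℕ → ℤ → ℤ → ℝ}
    {ex : ℤ → ℕ → ℤ → ℤ → Prop} {I : Finset ι} (hc : ∀ i ∈ I, 0 ≤ (B i).cp)
    (hG : ∀ x0 k n m, ¬ ex x0 k n m → ∀ x ∈ iv k n, ∀ y ∈ iv k m, G x0 k x y = G x0 (k + 1) x y)
    (k : ℕ) (x0 x1 x2 x3 : ℤ) :
    mainO c B I k (el c (x1, x2, x3)) * G x0 k x2 x3 =
      KrO c B G ex I k x0 x1 x2 x3 + RrO c B G ex I k x0 x1 x2 x3 :=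
  ker_eq hc (hG x0) (self_mem_iv k x2) (self_mem_iv k x3)

/-- **the hypothesis of `H606.TT_split`** -/
theorem split_eq {σ : Equiv.Perm (Fin 4)} {A : Fin 4 → ℕ → ℤ → ℝ} {B : ι → Bth}
    {G : ℤ → ℕ → ℤ → ℤ → ℝ} {ex : ℤ → ℕ → ℤ → ℤ → Prop} {I : Finset ι}
    (hc : ∀ i ∈ I, 0 ≤ (B i).cp)
    (hG : ∀ x0 k n m, ¬ ex x0 k n m → ∀ x ∈ iv k n, ∀ y ∈ iv k m, G x0 k x y = G x0 (k + 1) x y)
    {k : ℕ} {x0 x1 x2 x3 : ℤ}
    (hP : A (σ 0) k (el (lc σ 0) (x1, x2, x3)) = mainO (lc σ 0) B I k (el (lc σ 0) (x1, x2, x3)))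
    (hg : Gz σ (fun s => A s k) x0 x2 x3 = G x0 k x2 x3) :
    Pz σ (fun s => A s k) x1 x2 x3 * Gz σ (fun s => A s k) x0 x2 x3 =
      KrO (lc σ 0) B G ex I k x0 x1 x2 x3 + RrO (lc σ 0) B G ex I k x0 x1 x2 x3 := by
  rw [← main_split hc hG, hg, Pz_eq, ← hP]

/-- the kernel part on a box -/
theorem kern_eq (c : Pt) (B : ι → Bth) (G : ℤ → ℕ → ℤ → ℤ → ℝ) (ex : ℤ → ℕ → ℤ → ℤ → Prop)
    (I : Finset ι) {k : ℕ} {n q x2 x3 : ℤ} (h2 : x2 ∈ ivm k n) (h3 : x3 ∈ ivm k q)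
    (x0 x1 : ℤ) : KrO c B G ex I k x0 x1 x2 x3 =
      kS (actO c B (G x0) (ex x0) I x1 k n q) (aO B (G x0) x1) (bO B (G x0) x1) x2 x3 := by
  have e2 : ix k x2 = n := mem_iv.1 h2
  have e3 : ix k x3 = q := mem_iv.1 h3
  unfold KrO
  rw [e2, e3]

/-- the residual part on a box -/
theorem resr_eq (c : Pt) (B : ι → Bth) (G : ℤ → ℕ → ℤ → ℤ → ℝ) (ex : ℤ → ℕ → ℤ → ℤ → Prop)
    (I : Finset ι) {k : ℕ} {n q x2 x3 : ℤ} (h2 : x2 ∈ ivm k n) (h3 : x3 ∈ ivm k q)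
    (x0 x1 : ℤ) : RrO c B G ex I k x0 x1 x2 x3 = RO c B (G x0) (ex x0) I x1 k n q x2 x3 := by
  have e2 : ix k x2 = n := mem_iv.1 h2
  have e3 : ix k x3 = q := mem_iv.1 h3
  unfold RrO
  rw [e2, e3]

/-- the data of one fibre: `A2`, `A3` free -/
def fibD (σ : Equiv.Perm (Fin 4)) (o : ℤ) (B : ι → Bth) (G : ℤ → ℕ → ℤ → ℤ → ℝ)
    (ex : ℤ → ℕ → ℤ → ℤ → Prop) (I : Finset ι) (x0 x1 : ℤ)
    (A2 A3 : ℕ → ℤ → Finset ((ι × Pt × Pt) × (ℕ × ℤ × ℤ))) :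
    FibD ((ι × Pt × Pt) × (ℕ × ℤ × ℤ)) where
  a := aO B (G x0) x1
  b := bO B (G x0) x1
  act k n := actO (lc σ 0) B (G x0) (ex x0) I x1 k n (qf o x0 x1 k n)
  A2 := A2
  A3 := A3

/-- the second cell of a box is the matched cell -/
theorem qf_mt (o x0 x1 : ℤ) (k : ℕ) (n : ℤ) : qf o x0 x1 k n = H97b.mt o x0 x1 k n := rfl

/-- the first cell of a box is the matched cell of the second -/
theorem mt_qf (o x0 x1 : ℤ) (k : ℕ) (n : ℤ) : H97b.mt o x0 x1 k (qf o x0 x1 k n) = n := by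
  unfold qf qz H97b.mt ix
  ring

/-- **`FibOK` for the family of births.**  `A2 ⊇ WA`, `A3 ⊇ WB` on the used cells is asked in the
form `hA2`, `hA3` (for the window sets themselves and for the cut sets). -/
theorem fibI [DecidableEq ((ι × Pt × Pt) × (ℕ × ℤ × ℤ))] {σ : Equiv.Perm (Fin 4)} {o : ℤ}
    {K : ℕ} {nd : Finset (ℕ × ℤ)} {A : Fin 4 → ℕ → ℤ → ℝ} {B : ι → Bth}
    {G : ℤ → ℕ → ℤ → ℤ → ℝ} {ex : ℤ → ℕ → ℤ → ℤ → Prop} {I : Finset ι} {C : ι → Finset Pt}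
    {x0 x1 : ℤ} {A2 A3 : ℕ → ℤ → Finset ((ι × Pt × Pt) × (ℕ × ℤ × ℤ))} {τ e L : ℝ}
    {B2 B3 : Finset ℤ} {V2 V3 T2 T3 : ℤ → ℕ → Finset ℤ}
    (hC : ∀ k, 1 ≤ k → k ≤ K → ∀ n ∈ Uf σ o nd x0 x1 k, ∀ i ∈ I, k ≤ (B i).K →
      cx (B i).K (ptO k x1 n (qf o x0 x1 k n)) ∈ C i)
    (hA2 : ∀ k, 1 ≤ k → k ≤ K → ∀ n ∈ Uf σ o nd x0 x1 k,
      WA B (G x0) (ex x0) (QO (lc σ 0) B I C) o x0 x1 k n ⊆ A2 k n)
    (hA3 : ∀ k, 1 ≤ k → k ≤ K → ∀ n ∈ Uf σ o nd x0 x1 k,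
      WB B (G x0) (ex x0) (QO (lc σ 0) B I C) o x0 x1 k (qf o x0 x1 k n) ⊆
        A3 k (qf o x0 x1 k n))
    (root2 : ∀ k, 1 ≤ k → k ≤ K → ∀ n ∈ Uf σ o nd x0 x1 k, n / 2 ^ (K - k) ∈ B2)
    (root3 : ∀ k, 1 ≤ k → k ≤ K → ∀ n ∈ Uf σ o nd x0 x1 k,
      qf o x0 x1 k n / 2 ^ (K - k) ∈ B3)
    (used2 : ∀ k, 1 ≤ k → k ≤ K → ∀ n ∈ Uf σ o nd x0 x1 k, n ∈ V2 (n / 2 ^ (K - k)) k)
    (used3 : ∀ k, 1 ≤ k → k ≤ K → ∀ n ∈ Uf σ o nd x0 x1 k,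
      qf o x0 x1 k n ∈ V3 (qf o x0 x1 k n / 2 ^ (K - k)) k)
    (hop : ∀ k, 1 ≤ k → k ≤ K → ∀ n ∈ Uf σ o nd x0 x1 k, ∀ p r : ℤ → ℝ,
      |av2 (ivm k n) (ivm k (qf o x0 x1 k n)) (fun x2 x3 =>
        p x2 * (∑ w ∈ actO (lc σ 0) B (G x0) (ex x0) I x1 k n (qf o x0 x1 k n),
          aO B (G x0) x1 w x2 * bO B (G x0) x1 w x3) * r x3)| ≤
        τ * Real.sqrt (avg (ivm k n) fun x => p x ^ 2) *
          Real.sqrt (avg (ivm k (qf o x0 x1 k n)) fun x => r x ^ 2))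
    (tree2 : ∀ b ∈ B2, Reg2 e L (aO B (G x0) x1) A2
      (fun k x2 => Yz σ (fun s => A s k) x0 x1 x2) (fun k => hs k) K b (V2 b) (T2 b))
    (tree3 : ∀ b ∈ B3, Reg2 e L (bO B (G x0) x1) A3
      (fun k x3 => Xz σ (fun s => A s k) x0 x1 x3) (fun k => hs k) K b (V3 b) (T3 b)) :
    FibOK σ o K nd A (KrO (lc σ 0) B G ex I) τ e L x0 x1 B2 B3 V2 V3 T2 T3
      (fibD σ o B G ex I x0 x1 A2 A3) where
  root2 := root2
  root3 := root3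
  used2 := used2
  used3 := used3
  kern := fun k _ _ n _ x2 h2 x3 h3 => kern_eq (lc σ 0) B G ex I h2 h3 x0 x1
  ha := fun k h1 hk n hn => (act_sub_WA (by
    have h := self_mem_wn o x0 x1 k n
    rwa [← qf_mt] at h) (hC k h1 hk n hn)).trans (hA2 k h1 hk n hn)
  hb := fun k h1 hk n hn => (act_sub_WB (by
    have h := self_mem_wn o x0 x1 k (qf o x0 x1 k n)
    rwa [mt_qf] at h) (hC k h1 hk n hn)).trans (hA3 k h1 hk n hn)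
  hop := fun k h1 hk n hn p r => hop k h1 hk n hn p r
  tree2 := tree2
  tree3 := tree3

end

end Vale.Agent.P141.H865
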