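import Vale.Agent.P141.H816.FDat
import Vale.Agent.P141.H224.NumEn

/-!
# P141, line (A): the killed input as a path of weights

Letters of `H677.kF`, `H576.QD`, `H224.NumEn`. Point `(x₀, x, z)`, edge `(x, z)`.

* `kF_wm1`, `kF_wm` : the square of the killed input can only grow off the affected squares;
* `QL` : the affected squares of the root alive at the next time; `kF_wmL`;
* `line0`, `line1`, `lineN` : lines at the times `k` and `k + 1`;
* `packL` : packing of `QL` at every `x₀`; `massL`, `massLv` : masses on the squares of `QL`;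
* `tailL` : the tail of `H224.sum_cq_all` for the killed input.
-/

namespace Vale.Agent.P141.H865.Kf

open Finset Matrix
open Vale.Agent.P141.PL (Pt iv hs ix mem_iv ix_ix card_iv)
open Vale.Agent.P141.PL.H315 (Tri A2)
open Vale.Agent.P141.H48 (BSl sst)
open Vale.Agent.P141.H43 (nsq nsq_nonneg)
open Vale.Agent.P141.H576 (QD Dd_sst QD_pack)
open Vale.Agent.P141.H677 (kF)
open Vale.Agent.P141.H769 (sst_congr sst_anti ix_of_le ix_two_pow_mul)
open Vale.Agent.P141.H958 (Aff mem_Aff PackQ)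
open Vale.Agent.P141.H224 (cq wf nx anx)

noncomputable section

open scoped Classical

variable {Λ e cP s : ℝ} {a : ℤ × ℤ → ℝ} {K n : ℕ} {F : ℕ → Pt → ℝ} {Q : ℕ → Pt → Prop}

/-- one step off the affected cubes -/
theorem kF_wm1 (hB : BSl n e cP F Q) {k : ℕ} (h1 : 1 ≤ k) (hk : k < n) {x0 x z : ℤ}
    (h : ¬ Q k (ix k x0, ix k x, ix k z)) :
    kF Λ a K F k (x0, x, z) ^ 2 ≤ kF Λ a K F (k + 1) (x0, x, z) ^ 2 := by
  by_cases hs : sst Λ a K k x z
  · rw [H816.kF_dead hs, zero_pow two_ne_zero]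
    exact sq_nonneg _
  · have hs1 : ¬ sst Λ a K (k + 1) x z := fun h' => hs (sst_anti (Nat.le_succ k) h')
    have e1 : F (k + 1) (x0, x, z) = F k (x0, x, z) := by
      refine hB.agree k h1 hk _ h _ ?_
      rw [PL.mem_cb]
      rfl
    unfold H677.kF
    rw [if_neg (by
      rintro (h' | h')
      · omega
      · exact hs h'), if_neg (by
      rintro (h' | h')
      · omega
      · exact hs1 h'), e1]

/-- **The square of the killed input grows off the affected squares.** -/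
theorem kF_wm (hB : BSl n e cP F Q) {k : ℕ} (hk : k < n) {x0 x z : ℤ}
    (h : ¬ QD (fun k x y => sst Λ a K k x y) Q k (ix k x0) (ix k x) (ix k z)) :
    kF Λ a K F k (x0, x, z) ^ 2 ≤ kF Λ a K F (k + 1) (x0, x, z) ^ 2 := by
  unfold H576.QD at h
  push Not at h
  exact kF_wm1 hB (by have := h.1; omega) hk h.2.1

/-- the affected squares of the root, alive at the next time -/
def QL (Λ : ℝ) (a : ℤ × ℤ → ℝ) (K : ℕ) (Q : ℕ → Pt → Prop) (R S : ℤ) (k : ℕ) (i r t : ℤ) : Prop :=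
  QD (fun k x y => sst Λ a K k x y) Q k i r t ∧
    ¬ sst Λ a K (k + 1) (2 ^ k * r) (2 ^ k * t) ∧ ix (K - k) r = R ∧ ix (K - k) t = S

/-- **The same with `QL`**, points of the root. -/
theorem kF_wmL (hB : BSl n e cP F Q) (hK : K ≤ n) {R S x0 x z : ℤ} (hx : x ∈ iv K R)
    (hz : z ∈ iv K S) {k : ℕ} (hk : k < K) (h : ¬ QL Λ a K Q R S k (ix k x0) (ix k x) (ix k z)) :
    kF Λ a K F k (x0, x, z) ^ 2 ≤ kF Λ a K F (k + 1) (x0, x, z) ^ 2 := by
  by_cases hQ : QD (fun k x y => sst Λ a K k x y) Q k (ix k x0) (ix k x) (ix k z)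
  · have hx' : ix (K - k) (ix k x) = R := by
      rw [ix_ix, Nat.add_sub_cancel' hk.le]
      exact mem_iv.1 hx
    have hz' : ix (K - k) (ix k z) = S := by
      rw [ix_ix, Nat.add_sub_cancel' hk.le]
      exact mem_iv.1 hz
    have hs : sst Λ a K (k + 1) (2 ^ k * ix k x) (2 ^ k * ix k z) := by
      by_contra hs
      exact h ⟨hQ, hs, hx', hz'⟩
    have c1 : ix k x = ix k (2 ^ k * ix k x) := (ix_two_pow_mul k _).symm
    have c2 : ix k z = ix k (2 ^ k * ix k z) := (ix_two_pow_mul k _).symm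
    have hs1 : sst Λ a K (k + 1) x z :=
      (sst_congr (ix_of_le (Nat.le_succ k) c1) (ix_of_le (Nat.le_succ k) c2)).2 hs
    rw [H816.kF_dead (sst_anti (Nat.le_succ k) hs1), zero_pow two_ne_zero]
    exact sq_nonneg _
  · exact kF_wm hB (by omega) hQ

/-! ### Lines -/

/-- lines at the time `k`, letters of `H224.wf` -/
theorem line0 (hB : BSl n e cP F Q) (he : 0 ≤ e) (hK : K ≤ n) (x z : ℤ) :
    ∀ k ≤ K, ∀ j, ∑ x0 ∈ iv k j,
      wf (fun x0 k z x => kF Λ a K F k (x0, x, z)) x k x0 z ≤ e * 2 ^ k := fun _ hk j =>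
  H816.line_kF0 hB he a K (hk.trans hK) j x z

/-- lines at the time `k + 1` -/
theorem line1 (hB : BSl n e cP F Q) (hK : K ≤ n) (x z : ℤ) :
    ∀ k < K, ∀ j, ∑ x0 ∈ iv k j,
      wf (fun x0 k z x => kF Λ a K F k (x0, x, z)) x (k + 1) x0 z ≤ e * 2 ^ k := fun _ hk j =>
  H816.line_kF1 hB a K (by omega) j x z

/-- lines at the time `k + 1`, letters of `H224.nx` -/
theorem lineN (hB : BSl n e cP F Q) (he : 0 ≤ e) (hK : K ≤ n) (x z : ℤ) :
    ∀ k ≤ K, ∀ j, ∑ x0 ∈ iv k j,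
      nx K (wf (fun x0 k z x => kF Λ a K F k (x0, x, z)) x) k x0 z ≤ e * 2 ^ k := by
  intro k _ j
  unfold H224.nx
  by_cases h : k < K
  · simp only [if_pos h]
    exact line1 hB hK x z k h j
  · simp only [if_neg h, sum_const_zero]
    positivity

/-- the weights vanish on the stopped squares -/
theorem wf_dead {x0 x z : ℤ} {k : ℕ} (h : sst Λ a K k x z) :
    wf (fun x0 k z x => kF Λ a K F k (x0, x, z)) x k x0 z = 0 := by
  unfold H224.wf
  beta_reduce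
  rw [H816.kF_dead h, zero_pow two_ne_zero]

/-- the same at the time `k + 1` -/
theorem nx_dead {x0 x z : ℤ} {k : ℕ} (h : sst Λ a K (k + 1) x z) :
    nx K (wf (fun x0 k z x => kF Λ a K F k (x0, x, z)) x) k x0 z = 0 := by
  unfold H224.nx
  split_ifs
  · exact wf_dead h
  · rfl

/-! ### Packing and masses -/

/-- **Packing of the affected squares at one `x₀`.** -/
theorem packQD (hB : BSl n e cP F Q) (hK : K ≤ n) (R S x0 : ℤ) :
    PackQ K R S (fun l => QD (fun k x y => sst Λ a K k x y) Q l (ix l x0)) (cP + 2) :=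
  fun _ hN n' m' => (H769.aff_filter_le _ n' m').trans
    (QD_pack (Dd_sst Λ a K) hB x0 (hN.trans hK) n' m')

/-- fewer squares -/
theorem packQ_sub {N : ℕ} {R S : ℤ} {Q Q' : ℕ → ℤ → ℤ → Prop} {c : ℝ}
    (h : ∀ k i j, Q' k i j → Q k i j) (hP : PackQ N R S Q c) : PackQ N R S Q' c := by
  intro K hK n' m'
  refine le_trans (sum_le_sum_of_subset_of_nonneg (fun i hi => ?_) fun i _ _ => by positivity)
    (hP K hK n' m')
  rw [mem_filter, mem_Aff] at hi ⊢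
  obtain ⟨⟨h1, h2, h3, h4⟩, h5⟩ := hi
  exact ⟨⟨h1, h2, h3, h _ _ _ h4⟩, h5⟩

/-- **Packing of `QL` at one `x₀`.** -/
theorem packL (hB : BSl n e cP F Q) (hK : K ≤ n) (R S x0 : ℤ) :
    PackQ K R S (fun l => QL Λ a K Q R S l (ix l x0)) (cP + 2) :=
  packQ_sub (fun _ _ _ h => h.1) (packQD (Λ := Λ) (a := a) hB hK R S x0)

/-- **The mass of the edge on a square of `QL`.** -/
theorem massL (hΛ : 0 ≤ Λ) {X Y : ℤ} (ha : A2 K a X Y ≤ s) {k : ℕ} (hk : k < K) {i r t : ℤ}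
    (h : QL Λ a K Q (ix K X) (ix K Y) k i r t) :
    ∑ x ∈ iv k r, ∑ z ∈ iv k t, a (x, z) ^ 2 ≤ 4 * Λ * s * 4 ^ k :=
  H816.sq_alive hΛ hk h.2.2.1 h.2.2.2 ha h.2.1

/-- the same for a function below the edge on the root -/
theorem massLc (hΛ : 0 ≤ Λ) {X Y : ℤ} (ha : A2 K a X Y ≤ s) {κ : ℝ} (hκ : 0 ≤ κ)
    {c : ℤ → ℤ → ℝ} (hc : ∀ x ∈ iv K (ix K X), ∀ z ∈ iv K (ix K Y), c x z ≤ κ * a (x, z) ^ 2)
    {k : ℕ} (hk : k < K) {i r t : ℤ} (h : QL Λ a K Q (ix K X) (ix K Y) k i r t) :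
    ∑ x ∈ iv k r, ∑ z ∈ iv k t, c x z ≤ κ * (4 * Λ * s) * 4 ^ k := by
  have h1 : ∀ x ∈ iv k r, x ∈ iv K (ix K X) := fun x hx => by
    rw [mem_iv, ← h.2.2.1, ← mem_iv.1 hx, ix_ix, Nat.add_sub_cancel' hk.le]
  have h2 : ∀ z ∈ iv k t, z ∈ iv K (ix K Y) := fun z hz => by
    rw [mem_iv, ← h.2.2.2, ← mem_iv.1 hz, ix_ix, Nat.add_sub_cancel' hk.le]
  refine (sum_le_sum fun x hx => sum_le_sum fun z hz => hc x (h1 x hx) z (h2 z hz)).trans ?_
  simp only [← mul_sum]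
  refine (mul_le_mul_of_nonneg_left (massL hΛ ha hk h) hκ).trans (le_of_eq ?_)
  ring

/-- **The tail for the killed input**, `c ≤ κ a²` on the root. -/
theorem tailL (hB : BSl n e cP F Q) (hcP : 0 ≤ cP) (hK : K ≤ n) (hΛ : 0 ≤ Λ) (hs : 0 ≤ s)
    {X Y : ℤ} (ha : A2 K a X Y ≤ s) {κ : ℝ} (hκ : 0 ≤ κ) {c : ℤ → ℤ → ℝ}
    (hc : ∀ x ∈ iv K (ix K X), ∀ z ∈ iv K (ix K Y), c x z ≤ κ * a (x, z) ^ 2) (T : ℤ) (lam : ℕ) :
    ∑ x0 ∈ iv K T, ∑ x ∈ iv K (ix K X), ∑ z ∈ iv K (ix K Y), c x z *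
      ((cq (fun l j => QL Λ a K Q (ix K X) (ix K Y) l j (ix l x) (ix l z)) K 0 x0 - lam : ℕ) : ℝ) ≤
        κ * (4 * Λ * s) * (1 - 1 / (cP + 2)) ^ lam * (cP + 2) * 8 ^ K :=
  H224.sum_cq_all (Qf := QL Λ a K Q (ix K X) (ix K Y)) (by linarith) (by positivity)
    (fun x0 _ => packL hB hK _ _ x0) (fun _ _ _ hk _ _ h => massLc hΛ ha hκ hc hk h) lam

end

end Vale.Agent.P141.H865.Kf
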