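import Vale.Agent.P141.H911.Shift
import Vale.Agent.P141.H606.Fib
import Vale.Agent.P141.H443.Plane4

/-!
# P141, line W, end lemma (E-RES, (a)): the residual operator of every fibre

The first two coordinates `x0`, `x1` are fixed, the box is `ivm j n × ivm j m`.

* `res_one`: one atom, all its shifts `θ`; residual kernels with a cap, multiplied by the two
  translated edges at `x1`;
* `resK`, `res_sum`: a finite family of atoms of different scales;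
* `hop_of`: the operator bound of the alive kernel = bound of the whole kernel + residual
  (literally the hypothesis `hop` of `H606.fib_le`).
-/

namespace Vale.Agent.P141.H865

open Finset
open Vale.Agent.P141.PL (Pt el)
open Vale.Agent.P141.PL.H315 (avg avg_nonneg Tri cube3)
open Vale.Agent.P141.PL.H560 (cs)
open Vale.Agent.P141.PL.H804 (Cap)
open Vale.Agent.P141.H911
open Vale.Agent.P141.H337 (ivm card_ivm av2 ker)

noncomputable section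

/-! ### Operator bounds in the form of sums and of averages -/

theorem cap_abs {j : ℕ} {n m : ℤ} {σ : ℝ} (hσ : 0 ≤ σ) {A : ℤ → ℤ → ℝ} (h : Cap j n m σ A)
    (b g : ℤ → ℝ) :
    |∑ y ∈ ivm j n, ∑ z ∈ ivm j m, b y * g z * A y z| ≤
      σ * 2 ^ j * √(∑ y ∈ ivm j n, b y ^ 2) * √(∑ z ∈ ivm j m, g z ^ 2) := by
  have h1 : (∑ y ∈ ivm j n, ∑ z ∈ ivm j m, b y * g z * A y z) ^ 2 ≤
      (σ * 2 ^ j) ^ 2 * (∑ y ∈ ivm j n, b y ^ 2) * ∑ z ∈ ivm j m, g z ^ 2 := h b g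
  have hb : 0 ≤ ∑ y ∈ ivm j n, b y ^ 2 := sum_nonneg fun _ _ => sq_nonneg _
  have hg : 0 ≤ ∑ z ∈ ivm j m, g z ^ 2 := sum_nonneg fun _ _ => sq_nonneg _
  refine abs_le_of_sq_le_sq ?_ (by positivity)
  refine h1.trans (le_of_eq ?_)
  rw [show (σ * 2 ^ j * √(∑ y ∈ ivm j n, b y ^ 2) * √(∑ z ∈ ivm j m, g z ^ 2)) ^ 2 =
    (σ * 2 ^ j) ^ 2 * √(∑ y ∈ ivm j n, b y ^ 2) ^ 2 * √(∑ z ∈ ivm j m, g z ^ 2) ^ 2 by ring,
    Real.sq_sqrt hb, Real.sq_sqrt hg]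

/-- a sum over a square as an average -/
theorem av2_eq_sum (j : ℕ) (n m : ℤ) (f : ℤ → ℤ → ℝ) :
    av2 (ivm j n) (ivm j m) f = (4 ^ j : ℝ)⁻¹ * ∑ y ∈ ivm j n, ∑ z ∈ ivm j m, f y z := by
  unfold av2 avg
  rw [card_ivm, card_ivm]
  rw [show (4 : ℝ) ^ j = 2 ^ j * 2 ^ j by rw [← mul_pow]; norm_num]
  push_cast
  rw [← mul_sum, mul_inv]
  ring

theorem sqrt_avg (j : ℕ) (n : ℤ) (f : ℤ → ℝ) :
    √(∑ y ∈ ivm j n, f y ^ 2) = √(2 ^ j) * √(avg (ivm j n) fun y => f y ^ 2) := by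
  rw [← Real.sqrt_mul (by positivity)]
  congr 1
  unfold avg
  rw [card_ivm]
  push_cast
  rw [mul_inv_cancel_left₀ (by positivity)]

/-- an operator bound: from sums to averages -/
theorem av2_le_of_sum {j : ℕ} {n m : ℤ} {τ : ℝ} {A : ℤ → ℤ → ℝ}
    (h : ∀ b g : ℤ → ℝ, |∑ y ∈ ivm j n, ∑ z ∈ ivm j m, b y * g z * A y z| ≤
      τ * 2 ^ j * √(∑ y ∈ ivm j n, b y ^ 2) * √(∑ z ∈ ivm j m, g z ^ 2)) (b g : ℤ → ℝ) :
    |av2 (ivm j n) (ivm j m) (fun y z => b y * A y z * g z)| ≤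
      τ * √(avg (ivm j n) fun y => b y ^ 2) * √(avg (ivm j m) fun z => g z ^ 2) := by
  rw [av2_eq_sum, abs_mul, abs_of_pos (by positivity : (0 : ℝ) < (4 ^ j)⁻¹)]
  have h1 := h b g
  rw [sqrt_avg, sqrt_avg] at h1
  have e1 : (∑ y ∈ ivm j n, ∑ z ∈ ivm j m, b y * A y z * g z) =
      ∑ y ∈ ivm j n, ∑ z ∈ ivm j m, b y * g z * A y z :=
    sum_congr rfl fun y _ => sum_congr rfl fun z _ => by ring
  rw [e1]
  refine (mul_le_mul_of_nonneg_left h1 (by positivity)).trans (le_of_eq ?_)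
  have h4 : (4 : ℝ) ^ j = 2 ^ j * 2 ^ j := by rw [← mul_pow]; norm_num
  have h5 := Real.mul_self_sqrt (by positivity : (0 : ℝ) ≤ 2 ^ j)
  have h6 : (2 : ℝ) ^ j ≠ 0 := by positivity
  rw [h4, mul_inv]
  calc (2 ^ j : ℝ)⁻¹ * (2 ^ j)⁻¹ * (τ * 2 ^ j * (√(2 ^ j) * √(avg (ivm j n) fun y => b y ^ 2)) *
        (√(2 ^ j) * √(avg (ivm j m) fun y => g y ^ 2)))
      = ((2 ^ j : ℝ)⁻¹ * 2 ^ j) * ((2 ^ j)⁻¹ * (√(2 ^ j) * √(2 ^ j))) *
        (τ * √(avg (ivm j n) fun y => b y ^ 2) * √(avg (ivm j m) fun y => g y ^ 2)) := by ring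
    _ = _ := by rw [h5, inv_mul_cancel₀ h6, one_mul, one_mul]

/-! ### One atom -/

/-- **Residual of one atom**, every `x1`, every box. -/
theorem res_one {c : Pt} (h2 : c.2.1 ≠ 0) (h3 : c.2.2 ≠ 0) (k : ℕ) (p q : Pt) (u : Tri)
    {j : ℕ} {n m : ℤ} {σ : ℝ} (hσ : 0 ≤ σ) {W : Pt → ℤ → ℤ → ℝ}
    (hW : ∀ θ ∈ Th c k p q, Cap j n m σ (W θ)) (x1 : ℤ) (b g : ℤ → ℝ) :
    |∑ y ∈ ivm j n, ∑ z ∈ ivm j m, b y * g z * ∑ θ ∈ Th c k p q,
        (uT k q θ u).1 (x1, y) * (uT k q θ u).2.1 (x1, z) * W θ y z| ≤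
      σ * 2 ^ j * (4 ^ k * (H922.n2 (PL.H315.iv k q.1 ×ˢ PL.H315.iv k q.2.1) u.1 *
        H922.n2 (PL.H315.iv k q.1 ×ˢ PL.H315.iv k q.2.2) u.2.1)) *
        (√(∑ y ∈ ivm j n, b y ^ 2) * √(∑ z ∈ ivm j m, g z ^ 2)) := by
  have h := op_shift h2 h3 k p q (PL.H315.iv k q.1 ×ˢ PL.H315.iv k q.2.1)
    (PL.H315.iv k q.1 ×ˢ PL.H315.iv k q.2.2) u.1 u.2.1 (ivm j n) (ivm j m) W
    (τ := σ * 2 ^ j) (by positivity) (fun θ hθ b g => cap_abs hσ (hW θ hθ) b g) b g x1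
  refine h.trans (le_of_eq ?_)
  have e1 : ∀ s t : ℤ, ∀ f : ℤ × ℤ → ℝ,
      √(∑ w ∈ PL.H315.iv k s ×ˢ PL.H315.iv k t, f w ^ 2) =
        2 ^ k * H922.n2 (PL.H315.iv k s ×ˢ PL.H315.iv k t) f := by
    intro s t f
    unfold H922.n2 avg
    rw [card_product, PL.H315.card_iv, PL.H315.card_iv,
      show (2 : ℝ) ^ k = √((2 ^ k) ^ 2) by rw [Real.sqrt_sq (by positivity)],
      ← Real.sqrt_mul (by positivity)]
    congr 1
    push_cast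
    field_simp
  have hb : 0 ≤ ∑ y ∈ ivm j n, b y ^ 2 := sum_nonneg fun _ _ => sq_nonneg _
  have hg : 0 ≤ ∑ z ∈ ivm j m, g z ^ 2 := sum_nonneg fun _ _ => sq_nonneg _
  rw [Real.sqrt_mul hb, Real.sqrt_mul hg, e1, e1,
    show (4 : ℝ) ^ k = 2 ^ k * 2 ^ k by rw [← mul_pow]; norm_num]
  ring

/-! ### A finite family of atoms -/

variable {ι : Type*}

/-- the residual kernel of a finite family of atoms at `x1`: atom `i` has the scale `k i`, the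
cell `q i`, the coefficient `cf i`; the kernels are `W i θ` -/
def resK (c : Pt) (p : Pt) (I : Finset ι) (k : ι → ℕ) (q : ι → Pt) (u : ι → Tri) (cf : ι → ℝ)
    (W : ι → Pt → ℤ → ℤ → ℝ) (x1 x2 x3 : ℤ) : ℝ :=
  ∑ i ∈ I, cf i * ∑ θ ∈ Th c (k i) p (q i),
    (uT (k i) (q i) θ (u i)).1 (x1, x2) * (uT (k i) (q i) θ (u i)).2.1 (x1, x3) * W i θ x2 x3

/-- the size of the residual kernel -/
def resT (I : Finset ι) (k : ι → ℕ) (q : ι → Pt) (u : ι → Tri) (cf σ : ι → ℝ) : ℝ :=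
  ∑ i ∈ I, |cf i| * σ i * (4 ^ k i *
    (H922.n2 (PL.H315.iv (k i) (q i).1 ×ˢ PL.H315.iv (k i) (q i).2.1) (u i).1 *
      H922.n2 (PL.H315.iv (k i) (q i).1 ×ˢ PL.H315.iv (k i) (q i).2.2) (u i).2.1))

theorem resT_nonneg {I : Finset ι} {k : ι → ℕ} {q : ι → Pt} {u : ι → Tri} {cf σ : ι → ℝ}
    (hσ : ∀ i ∈ I, 0 ≤ σ i) : 0 ≤ resT I k q u cf σ := by
  unfold resT
  refine sum_nonneg fun i hi => ?_
  have h1 := H922.n2_nonneg (PL.H315.iv (k i) (q i).1 ×ˢ PL.H315.iv (k i) (q i).2.1) (u i).1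
  have h2 := H922.n2_nonneg (PL.H315.iv (k i) (q i).1 ×ˢ PL.H315.iv (k i) (q i).2.2) (u i).2.1
  have h3 := hσ i hi
  positivity

/-- **Residual of a finite family**, sums. -/
theorem res_sum' {c : Pt} (h2 : c.2.1 ≠ 0) (h3 : c.2.2 ≠ 0) (p : Pt) (I : Finset ι) (k : ι → ℕ)
    (q : ι → Pt) (u : ι → Tri) (cf : ι → ℝ) {σ : ι → ℝ} {W : ι → Pt → ℤ → ℤ → ℝ}
    {j : ℕ} {n m : ℤ} (hσ : ∀ i ∈ I, 0 ≤ σ i)
    (hW : ∀ i ∈ I, ∀ θ ∈ Th c (k i) p (q i), Cap j n m (σ i) (W i θ)) (x1 : ℤ) (b g : ℤ → ℝ) :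
    |∑ y ∈ ivm j n, ∑ z ∈ ivm j m, b y * g z * resK c p I k q u cf W x1 y z| ≤
      resT I k q u cf σ * 2 ^ j * √(∑ y ∈ ivm j n, b y ^ 2) * √(∑ z ∈ ivm j m, g z ^ 2) := by
  have e1 : (∑ y ∈ ivm j n, ∑ z ∈ ivm j m, b y * g z * resK c p I k q u cf W x1 y z) =
      ∑ i ∈ I, cf i * ∑ y ∈ ivm j n, ∑ z ∈ ivm j m, b y * g z * ∑ θ ∈ Th c (k i) p (q i),
        (uT (k i) (q i) θ (u i)).1 (x1, y) * (uT (k i) (q i) θ (u i)).2.1 (x1, z) *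
          W i θ y z := by
    unfold resK
    simp only [mul_sum]
    have e2 : ∀ y ∈ ivm j n, (∑ z ∈ ivm j m, ∑ i ∈ I, ∑ θ ∈ Th c (k i) p (q i),
        b y * g z * (cf i * ((uT (k i) (q i) θ (u i)).1 (x1, y) *
          (uT (k i) (q i) θ (u i)).2.1 (x1, z) * W i θ y z))) =
        ∑ i ∈ I, ∑ z ∈ ivm j m, ∑ θ ∈ Th c (k i) p (q i),
        cf i * (b y * g z * ((uT (k i) (q i) θ (u i)).1 (x1, y) *
          (uT (k i) (q i) θ (u i)).2.1 (x1, z) * W i θ y z)) := by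
      intro y _
      rw [sum_comm]
      refine sum_congr rfl fun i _ => sum_congr rfl fun z _ => sum_congr rfl fun θ _ => ?_
      ring
    rw [sum_congr rfl e2, sum_comm]
  rw [e1]
  refine (abs_sum_le_sum_abs _ _).trans ?_
  unfold resT
  rw [sum_mul, sum_mul, sum_mul]
  refine sum_le_sum fun i hi => ?_
  rw [abs_mul]
  refine (mul_le_mul_of_nonneg_left
    (res_one h2 h3 (k i) p (q i) (u i) (hσ i hi) (hW i hi) x1 b g) (abs_nonneg _)).trans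
    (le_of_eq ?_)
  ring

/-- **Residual of a finite family**, averages: the operator norm is at most `resT`. -/
theorem res_sum {c : Pt} (h2 : c.2.1 ≠ 0) (h3 : c.2.2 ≠ 0) (p : Pt) (I : Finset ι) (k : ι → ℕ)
    (q : ι → Pt) (u : ι → Tri) (cf : ι → ℝ) {σ : ι → ℝ} {W : ι → Pt → ℤ → ℤ → ℝ}
    {j : ℕ} {n m : ℤ} (hσ : ∀ i ∈ I, 0 ≤ σ i)
    (hW : ∀ i ∈ I, ∀ θ ∈ Th c (k i) p (q i), Cap j n m (σ i) (W i θ)) (x1 : ℤ) (b g : ℤ → ℝ) :
    |av2 (ivm j n) (ivm j m) (fun y z => b y * resK c p I k q u cf W x1 y z * g z)| ≤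
      resT I k q u cf σ * √(avg (ivm j n) fun y => b y ^ 2) *
        √(avg (ivm j m) fun z => g z ^ 2) :=
  av2_le_of_sum (fun b g => res_sum' h2 h3 p I k q u cf hσ hW x1 b g) b g

/-! ### The alive kernel -/

/-- **the operator bound of the alive kernel** (`hop` of `H606.fib_le`) -/
theorem hop_of {Ω : Type*} [Fintype Ω] {J2 J3 : Finset ℤ} {a b : Ω → ℤ → ℝ} {S R : ℤ → ℤ → ℝ}
    {κ τ : ℝ} (hker : ∀ x2 ∈ J2, ∀ x3 ∈ J3, ker a b x2 x3 = S x2 x3 - R x2 x3)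
    (hS : ∀ p r : ℤ → ℝ, |av2 J2 J3 (fun x2 x3 => p x2 * S x2 x3 * r x3)| ≤
      κ * √(avg J2 fun x => p x ^ 2) * √(avg J3 fun x => r x ^ 2))
    (hR : ∀ p r : ℤ → ℝ, |av2 J2 J3 (fun x2 x3 => p x2 * R x2 x3 * r x3)| ≤
      τ * √(avg J2 fun x => p x ^ 2) * √(avg J3 fun x => r x ^ 2)) (p r : ℤ → ℝ) :
    |av2 J2 J3 (fun x2 x3 => p x2 * ker a b x2 x3 * r x3)| ≤
      (κ + τ) * √(avg J2 fun x => p x ^ 2) * √(avg J3 fun x => r x ^ 2) := by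
  have e1 : av2 J2 J3 (fun x2 x3 => p x2 * ker a b x2 x3 * r x3) =
      av2 J2 J3 (fun x2 x3 => p x2 * S x2 x3 * r x3) -
        av2 J2 J3 (fun x2 x3 => p x2 * R x2 x3 * r x3) := by
    unfold av2
    rw [← H337.avg_sub]
    refine H337.avg_congr fun x2 hx2 => ?_
    rw [← H337.avg_sub]
    refine H337.avg_congr fun x3 hx3 => ?_
    simp only
    rw [hker x2 hx2 x3 hx3]
    ring
  rw [e1]
  refine (abs_sub _ _).trans ((add_le_add (hS p r) (hR p r)).trans (le_of_eq ?_))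
  ring

/-- the pair norm in the form of `hop_of` -/
theorem av2_le_of_n2 {j : ℕ} {n m : ℤ} {κ : ℝ} {S : ℤ → ℤ → ℝ}
    (h : ∀ b g : ℤ → ℝ, |∑ y ∈ ivm j n, ∑ z ∈ ivm j m, S y z * b y * g z| ≤
      κ * 4 ^ j * H922.n2 (ivm j n) b * H922.n2 (ivm j m) g) (b g : ℤ → ℝ) :
    |av2 (ivm j n) (ivm j m) (fun y z => b y * S y z * g z)| ≤
      κ * √(avg (ivm j n) fun y => b y ^ 2) * √(avg (ivm j m) fun z => g z ^ 2) := by
  rw [av2_eq_sum, abs_mul, abs_of_pos (by positivity : (0 : ℝ) < (4 ^ j)⁻¹)]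
  have e1 : (∑ y ∈ ivm j n, ∑ z ∈ ivm j m, b y * S y z * g z) =
      ∑ y ∈ ivm j n, ∑ z ∈ ivm j m, S y z * b y * g z :=
    sum_congr rfl fun y _ => sum_congr rfl fun z _ => by ring
  rw [e1]
  refine (mul_le_mul_of_nonneg_left (h b g) (by positivity)).trans (le_of_eq ?_)
  unfold H922.n2
  have h4 : (4 : ℝ) ^ j ≠ 0 := by positivity
  field_simp

end

end Vale.Agent.P141.H865
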