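import Vale.Agent.P141.H150.HystB

/-!
# P141, line W, end lemma: the plane process of a moving kernel

`A : ℕ → ℤ → ℤ → ℝ` is a kernel which depends on the scale; `ch k n m` says that it changes on the
square `(k; n, m)` between the scales `k + 1` and `k`.  At every change square the process of
`H150.Hyst` is restarted with the new kernel.  `ep k n m` is the scale of the last restart.
-/

namespace Vale.Agent.P141.H865

open Finset Vale.Agent.P141.PL Vale.Agent.P141.PL.H317
open Vale.Agent.P141.H736 Vale.Agent.P141.H958 Vale.Agent.P141.H443 Vale.Agent.P141.H150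

noncomputable section

/-! ### The minimiser depends only on the kernel on the square -/

theorem choose_congr {α : Type*} {P Q : α → Prop} (h : P = Q) (hp : ∃ x, P x) (hq : ∃ x, Q x) :
    hp.choose = hq.choose := by
  subst h; rfl

theorem Um_congr {A B : ℤ → ℤ → ℝ} {c : ℝ} {k : ℕ} {n m : ℤ}
    (h : ∀ x ∈ iv k n, ∀ y ∈ iv k m, A x y = B x y) : Um A c k n m = Um B c k n m := by
  have h1 : ∀ V, fE A c k n m V = fE B c k n m V := by
    intro V
    unfold fE
    rw [E2_congr (V := fun x y => A x y - V x y) (W := fun x y => B x y - V x y)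
      fun x hx y hy => by rw [h x hx y hy]]
  unfold Um
  split_ifs with hc
  · refine choose_congr ?_ _ _
    funext U
    simp only [h1]
  · rfl

theorem Ug_congr {A B : ℤ → ℤ → ℝ} {c : ℝ} {k : ℕ} {n m x y : ℤ}
    (h : ∀ x ∈ iv k n, ∀ y ∈ iv k m, A x y = B x y) (hx : x ∈ iv k n) (hy : y ∈ iv k m) :
    Ug A c k x y = Ug B c k x y := by
  rw [Ug_eq A c hx hy, Ug_eq B c hx hy, Um_congr h]

theorem comA_congr {A B : ℤ → ℤ → ℝ} {c : ℝ} {i : ℕ × ℤ × ℤ}
    (h : ∀ x ∈ iv i.1 (ix i.1 i.2.1), ∀ y ∈ iv i.1 i.2.2, A x y = B x y) (x : ℤ) :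
    comA A c i x = comA B c i x := by
  unfold comA fa
  rw [Um_congr h]

theorem comB_congr {A B : ℤ → ℤ → ℝ} {c : ℝ} {i : ℕ × ℤ × ℤ}
    (h : ∀ x ∈ iv i.1 (ix i.1 i.2.1), ∀ y ∈ iv i.1 i.2.2, A x y = B x y) (y : ℤ) :
    comB A c i y = comB B c i y := by
  unfold comB fb
  rw [Um_congr h]

/-! ### Epochs -/

open Classical in
/-- the scale of the last change after `j` steps -/
def eps (ch : ℕ → ℤ → ℤ → Prop) (K : ℕ) (j : ℕ) : ℤ → ℤ → ℕ :=
  Nat.rec (fun _ _ => K)
    (fun i p n m => if ch (K - (i + 1)) n m then K - (i + 1) else p (n / 2) (m / 2)) j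

/-- **the scale of the last change** above the square `(k; n, m)`, `K` if there is none -/
def ep (ch : ℕ → ℤ → ℤ → Prop) (K k : ℕ) (n m : ℤ) : ℕ := eps ch K (K - k) n m

variable {ch : ℕ → ℤ → ℤ → Prop} {K : ℕ}

theorem ep_top (n m : ℤ) : ep ch K K n m = K := by
  unfold ep
  rw [Nat.sub_self]
  rfl

open Classical in
theorem ep_step {k : ℕ} (hk : k < K) (n m : ℤ) :
    ep ch K k n m = if ch k n m then k else ep ch K (k + 1) (n / 2) (m / 2) := by
  unfold ep
  have h1 : K - k = (K - (k + 1)) + 1 := by omega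
  have h2 : K - ((K - (k + 1)) + 1) = k := by omega
  rw [h1]
  show (if ch (K - ((K - (k + 1)) + 1)) n m then K - ((K - (k + 1)) + 1) else _) = _
  rw [h2]
  rfl

theorem ep_of_ch {k : ℕ} (hk : k < K) {n m : ℤ} (h : ch k n m) : ep ch K k n m = k := by
  rw [ep_step hk, if_pos h]

theorem ep_of_not {k : ℕ} (hk : k < K) {n m : ℤ} (h : ¬ ch k n m) :
    ep ch K k n m = ep ch K (k + 1) (n / 2) (m / 2) := by
  rw [ep_step hk, if_neg h]

theorem ep_bounds : ∀ {k : ℕ}, k ≤ K → ∀ n m : ℤ, k ≤ ep ch K k n m ∧ ep ch K k n m ≤ K := by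
  have key : ∀ d k, k + d = K → ∀ n m : ℤ, k ≤ ep ch K k n m ∧ ep ch K k n m ≤ K := by
    intro d
    induction d with
    | zero =>
      intro k hk n m
      have : k = K := by omega
      subst this
      rw [ep_top]
      exact ⟨le_rfl, le_rfl⟩
    | succ d ih =>
      intro k hk n m
      by_cases h : ch k n m
      · rw [ep_of_ch (by omega) h]; omega
      · rw [ep_of_not (by omega) h]
        have := ih (k + 1) (by omega) (n / 2) (m / 2)
        omega
  intro k hk n m
  exact key (K - k) k (by omega) n m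

theorem ep_up {k : ℕ} (hk : k < K) {n m : ℤ} (h : k < ep ch K k n m) :
    ep ch K (k + 1) (n / 2) (m / 2) = ep ch K k n m := by
  by_cases h1 : ch k n m
  · rw [ep_of_ch hk h1] at h; omega
  · rw [ep_of_not hk h1]

/-- the epoch of the squares between the square and the last change -/
theorem ep_ix {k : ℕ} (hk : k ≤ K) {n m : ℤ} : ∀ {r : ℕ}, k ≤ r → r ≤ ep ch K k n m →
    ep ch K r (ix (r - k) n) (ix (r - k) m) = ep ch K k n m := by
  have hix : ∀ (j : ℕ) (n : ℤ), ix (j + 1) n = ix j n / 2 := by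
    intro j n
    rw [← ix_ix j 1 n]
    have h3 : ∀ y : ℤ, ix 1 y = y / 2 := fun y => by unfold ix; norm_num
    rw [h3]
  have key : ∀ d, ∀ r, r = k + d → r ≤ ep ch K k n m →
      ep ch K r (ix (r - k) n) (ix (r - k) m) = ep ch K k n m := by
    intro d
    induction d with
    | zero =>
      intro r hr _
      have h0 : r = k := by omega
      subst h0
      have : ∀ n : ℤ, ix (r - r) n = n := fun n => by unfold ix; simp
      rw [this, this]
    | succ d ih =>
      intro r hr hre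
      have h1 := ih (k + d) rfl (by omega)
      have hb := (ep_bounds (ch := ch) hk n m).2
      have h2 := ep_up (ch := ch) (K := K) (k := k + d) (by omega)
        (n := ix (k + d - k) n) (m := ix (k + d - k) m) (by rw [h1]; omega)
      rw [h1] at h2
      subst hr
      have e1 : k + (d + 1) - k = (k + d - k) + 1 := by omega
      rw [e1, hix, hix]
      exact h2
  intro r hr hre
  exact key (r - k) r (by omega) hre

/-- the kernel is constant between the changes -/
def Mv (A : ℕ → ℤ → ℤ → ℝ) (ch : ℕ → ℤ → ℤ → Prop) (K : ℕ) : Prop :=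
  ∀ k < K, ∀ n m, ¬ ch k n m → ∀ x ∈ iv k n, ∀ y ∈ iv k m, A k x y = A (k + 1) x y

variable {A : ℕ → ℤ → ℤ → ℝ}

theorem iv_sub_ix {k : ℕ} {n x : ℤ} (hx : x ∈ iv k n) : x ∈ iv (k + 1) (n / 2) :=
  iv_sub_child rfl hx

/-- the kernel of the epoch -/
theorem Mv.eq (h : Mv A ch K) {k : ℕ} (hk : k ≤ K) {n m : ℤ} {j : ℕ} (hkj : k ≤ j)
    (hj : j ≤ ep ch K k n m) : ∀ x ∈ iv k n, ∀ y ∈ iv k m, A k x y = A j x y := by
  have key : ∀ d k, k + d = j → k ≤ K → ∀ n m, j ≤ ep ch K k n m →
      ∀ x ∈ iv k n, ∀ y ∈ iv k m, A k x y = A j x y := by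
    intro d
    induction d with
    | zero =>
      intro k hk _ n m _ x _ y _
      have : k = j := by omega
      rw [this]
    | succ d ih =>
      intro k hkd hkK n m hje x hx y hy
      have hb := (ep_bounds (ch := ch) hkK n m).2
      have h1 : ¬ ch k n m := by
        intro hc
        rw [ep_of_ch (by omega) hc] at hje
        omega
      rw [h k (by omega) n m h1 x hx y hy]
      refine ih (k + 1) (by omega) (by omega) (n / 2) (m / 2) ?_ x (iv_sub_ix hx) y (iv_sub_ix hy)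
      rw [← ep_of_not (by omega) h1]
      exact hje
  exact key (j - k) k (by omega) hk n m hj

/-! ### The process -/

/-- the used squares of the epoch `e` -/
def usE (ch : ℕ → ℤ → ℤ → Prop) (us : ℕ → ℤ → ℤ → Prop) (K e : ℕ) (k : ℕ) (n m : ℤ) : Prop :=
  us k n m ∧ (e ≤ k ∨ ep ch K k n m = e)

theorem usE_up {us : ℕ → ℤ → ℤ → Prop} (hus : ∀ k n m, us k n m → us (k + 1) (n / 2) (m / 2))
    {e : ℕ} (he : e ≤ K) : ∀ k n m, usE ch us K e k n m → usE ch us K e (k + 1) (n / 2) (m / 2) := by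
  rintro k n m ⟨h1, h2⟩
  refine ⟨hus k n m h1, ?_⟩
  rcases h2 with h2 | h2
  · left; omega
  · by_cases h3 : e ≤ k + 1
    · left; exact h3
    · right
      rw [ep_up (by omega) (by rw [h2]; omega), h2]

/-- **the state** of a square -/
def stM (A : ℕ → ℤ → ℤ → ℝ) (c ξ η : ℝ) (us ch : ℕ → ℤ → ℤ → Prop) (K k : ℕ) (n m : ℤ) :
    Option ℕ :=
  st (A (ep ch K k n m)) c ξ η (usE ch us K (ep ch K k n m)) (ep ch K k n m) k n m

/-- **the active components** -/
def actM (A : ℕ → ℤ → ℤ → ℝ) (c ξ η : ℝ) (us ch : ℕ → ℤ → ℤ → Prop) (K k : ℕ) (n m : ℤ) :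
    Finset (ℕ × ℤ × ℤ) :=
  actH (A (ep ch K k n m)) c ξ η (usE ch us K (ep ch K k n m)) (ep ch K k n m) k n m

/-- **the residual** -/
def RsM (A : ℕ → ℤ → ℤ → ℝ) (c ξ η : ℝ) (us ch : ℕ → ℤ → ℤ → Prop) (K k : ℕ) (x y : ℤ) : ℝ :=
  RsH (A (ep ch K k (ix k x) (ix k y))) c ξ η (usE ch us K (ep ch K k (ix k x) (ix k y)))
    (ep ch K k (ix k x) (ix k y)) k x y

variable {c ξ η : ℝ} {us : ℕ → ℤ → ℤ → Prop}

theorem RsM_eq {k : ℕ} {n m x y : ℤ} (hx : x ∈ iv k n) (hy : y ∈ iv k m) :
    RsM A c ξ η us ch K k x y =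
      RsH (A (ep ch K k n m)) c ξ η (usE ch us K (ep ch K k n m)) (ep ch K k n m) k x y := by
  unfold RsM
  rw [mem_iv.1 hx, mem_iv.1 hy]

theorem stM_bounds {k : ℕ} (hk : k ≤ K) (n m : ℤ) {r : ℕ}
    (h : stM A c ξ η us ch K k n m = some r) : k ≤ r ∧ r ≤ ep ch K k n m :=
  st_bounds (ep_bounds hk n m).1 n m h

/-- at a change square the state is `none` or the scale itself -/
theorem stM_of_ch {k : ℕ} (hk : k < K) {n m : ℤ} (h : ch k n m) {r : ℕ}
    (hr : stM A c ξ η us ch K k n m = some r) : r = k := by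
  have h1 := stM_bounds hk.le n m hr
  rw [ep_of_ch hk h] at h1
  omega

/-- **inheritance** -/
theorem stM_inherit {k : ℕ} (hk : k < K) {n m : ℤ} {r : ℕ}
    (h : stM A c ξ η us ch K k n m = some r) (hr : r ≠ k) :
    stM A c ξ η us ch K (k + 1) (n / 2) (m / 2) = some r := by
  have h1 := stM_bounds hk.le n m h
  have h2 := ep_up (ch := ch) hk (n := n) (m := m) (by omega)
  unfold stM at h ⊢
  rw [h2]
  exact st_inherit (by omega) h hr

theorem actM_scale {k : ℕ} {n m : ℤ} {i : ℕ × ℤ × ℤ} (hi : i ∈ actM A c ξ η us ch K k n m) :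
    stM A c ξ η us ch K k n m = some i.1 := actH_scale hi

theorem actM_none {k : ℕ} {n m : ℤ} (h : stM A c ξ η us ch K k n m = none) :
    actM A c ξ η us ch K k n m = ∅ := actH_none h

theorem actM_some {k : ℕ} {n m : ℤ} {r : ℕ} (h : stM A c ξ η us ch K k n m = some r) :
    actM A c ξ η us ch K k n m = cset r (ix (r - k) n) (ix (r - k) m) := actH_some h

/-- **Upwards closed until the birth.** -/
theorem actM_up {k : ℕ} (hk : k < K) {n m : ℤ} {i : ℕ × ℤ × ℤ}
    (hi : i ∈ actM A c ξ η us ch K k n m) (h : k < i.1) :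
    i ∈ actM A c ξ η us ch K (k + 1) (n / 2) (m / 2) := by
  have h1 := stM_bounds hk.le n m (actM_scale hi)
  have h2 := ep_up (ch := ch) hk (n := n) (m := m) (by omega)
  unfold actM at hi ⊢
  rw [h2]
  exact actH_up (by omega) hi h

/-- **The alive matrix is the sum of the active components**, each one with the kernel at its
birth scale. -/
theorem aliveM_eq (hM : Mv A ch K) (hc : 0 ≤ c) {k : ℕ} (hk : k ≤ K) {n m x y : ℤ}
    (hx : x ∈ iv k n) (hy : y ∈ iv k m) :
    A k x y - RsM A c ξ η us ch K k x y =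
      ∑ i ∈ actM A c ξ η us ch K k n m, comA (A i.1) c i x * comB (A i.1) c i y := by
  have hb := ep_bounds (ch := ch) hk n m
  set e := ep ch K k n m with he
  rw [RsM_eq hx hy, hM.eq hk hb.1 le_rfl x hx y hy, ← he,
    aliveH_eq (A := A e) (c := c) (ξ := ξ) (η := η) (us := usE ch us K e) hc hb.1 hx hy]
  unfold actM
  rw [← he]
  refine sum_congr rfl fun i hi => ?_
  have h1 := actH_scale hi
  have h2 := st_bounds hb.1 n m h1
  rw [actH_some h1, mem_cset] at hi
  have h3 : ∀ x ∈ iv i.1 (ix i.1 i.2.1), ∀ y ∈ iv i.1 i.2.2, A e x y = A i.1 x y := by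
    intro x hx y hy
    rw [hi.2.1] at hx
    rw [hi.2.2] at hy
    have h4 := ep_ix (ch := ch) hk (n := n) (m := m) h2.1 (by rw [← he]; exact h2.2)
    exact (hM.eq (h2.2.trans hb.2) h2.2 (by rw [h4]) x hx y hy).symm
  rw [comA_congr h3, comB_congr h3]

theorem E2_ep (hM : Mv A ch K) {k : ℕ} (hk : k ≤ K) (n m : ℤ) :
    E2 (iv k n) (iv k m) (A (ep ch K k n m)) = E2 (iv k n) (iv k m) (A k) := by
  have hb := ep_bounds (ch := ch) hk n m
  exact E2_congr fun x hx y hy => (hM.eq hk hb.1 le_rfl x hx y hy).symm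

/-- **An alive square is used and has a large current energy.** -/
theorem alive_energyM (hM : Mv A ch K) {k : ℕ} (hk : k ≤ K) {n m : ℤ}
    (h : stM A c ξ η us ch K k n m ≠ none) :
    us k n m ∧ η * 4 ^ k ≤ E2 (iv k n) (iv k m) (A k) := by
  have h1 := alive_energy (ep_bounds hk n m).1 h
  rw [E2_ep hM hk] at h1
  exact ⟨h1.1.1, h1.2⟩

/-- a used square which is not alive has a small energy -/
theorem dead_energyM (hM : Mv A ch K) {k : ℕ} (hk : k ≤ K) {n m : ℤ} (hη : 0 ≤ η)
    (hu : us k n m) (h : stM A c ξ η us ch K k n m = none) :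
    E2 (iv k n) (iv k m) (A k) ≤ 2 * η * 4 ^ k := by
  rw [← E2_ep hM hk]
  exact dead_energy (ep_bounds hk n m).1 hη ⟨hu, Or.inr rfl⟩ h

theorem RsM_none (hM : Mv A ch K) {k : ℕ} (hk : k ≤ K) {n m x y : ℤ} (hx : x ∈ iv k n)
    (hy : y ∈ iv k m) (h : stM A c ξ η us ch K k n m = none) :
    RsM A c ξ η us ch K k x y = A k x y := by
  rw [RsM_eq hx hy, RsH_none hx hy h]
  exact (hM.eq hk (ep_bounds hk n m).1 le_rfl x hx y hy).symm

theorem RsM_some (hM : Mv A ch K) {k : ℕ} (hk : k ≤ K) {n m x y : ℤ} (hx : x ∈ iv k n)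
    (hy : y ∈ iv k m) {r : ℕ} (h : stM A c ξ η us ch K k n m = some r) :
    RsM A c ξ η us ch K k x y = Ug (A r) c r x y := by
  have hb := stM_bounds hk n m h
  have he := ep_bounds (ch := ch) hk n m
  rw [RsM_eq hx hy, RsH_some hx hy h]
  refine Ug_congr (n := ix (r - k) n) (m := ix (r - k) m) ?_ (mem_iv.2 (ix_ref hb.1 hx))
    (mem_iv.2 (ix_ref hb.1 hy))
  intro x hx y hy
  have h4 := ep_ix (ch := ch) hk (n := n) (m := m) hb.1 hb.2
  exact (hM.eq (hb.2.trans he.2) hb.2 (by rw [h4]) x hx y hy).symm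

/-- **Nothing changes** on a square without a change where the state is the one of the parent. -/
theorem RsM_step (hM : Mv A ch K) {k : ℕ} (hk : k < K) {n m : ℤ} (hc : ¬ ch k n m)
    (h : stM A c ξ η us ch K k n m = stM A c ξ η us ch K (k + 1) (n / 2) (m / 2)) {x y : ℤ}
    (hx : x ∈ iv k n) (hy : y ∈ iv k m) :
    RsM A c ξ η us ch K k x y = RsM A c ξ η us ch K (k + 1) x y := by
  have h1 := iv_sub_ix hx
  have h2 := iv_sub_ix hy
  rcases hs : stM A c ξ η us ch K k n m with _ | r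
  · rw [RsM_none hM hk.le hx hy hs, RsM_none hM (by omega) h1 h2 (by rw [← h, hs])]
    exact hM k hk n m hc x hx y hy
  · rw [RsM_some hM hk.le hx hy hs, RsM_some hM (by omega) h1 h2 (by rw [← h, hs])]

/-- **The cap of the residual.** -/
theorem cap_RsM (hM : Mv A ch K) (hc : 0 < c) (hξ : 0 < ξ) (hη : 0 ≤ η) {k : ℕ} (hk : k ≤ K)
    {n m : ℤ} (hu : us k n m) {s S : ℝ} (hs : 0 ≤ s) (hS : s + √ξ ≤ S) (hS' : √(2 * η) ≤ S)
    (hA : E2 (iv k n) (iv k m) (A k) ≤ c * s ^ 4 * 4 ^ k) :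
    Cap k n m S (RsM A c ξ η us ch K k) := by
  have h1 := cap_RsH (A := A (ep ch K k n m)) (us := usE ch us K (ep ch K k n m)) hc hξ hη
    (ep_bounds (ch := ch) hk n m).1 (n := n) (m := m) ⟨hu, Or.inr rfl⟩ hs hS hS'
    (by rw [E2_ep hM hk]; exact hA)
  exact cap_congr (fun x hx y hy => (RsM_eq hx hy).symm) h1

/-! ### Packing of the births -/

theorem sumd_nonneg {f : ℕ → ℤ → ℤ → ℝ} (h : ∀ j a b, 0 ≤ f j a b) (k : ℕ) (n m : ℤ) :
    0 ≤ sumd f k n m := by
  unfold sumd
  exact sum_nonneg fun _ _ => sum_nonneg fun _ _ => sum_nonneg fun _ _ => h _ _ _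

theorem sumd_mono {f g : ℕ → ℤ → ℤ → ℝ} {k : ℕ} (h : ∀ j < k, ∀ a b, f j a b ≤ g j a b)
    (n m : ℤ) : sumd f k n m ≤ sumd g k n m := by
  unfold sumd
  exact sum_le_sum fun j hj => sum_le_sum fun _ _ => sum_le_sum fun _ _ =>
    h j (mem_range.1 hj) _ _

theorem sumd_smul (a : ℝ) (f : ℕ → ℤ → ℤ → ℝ) (k : ℕ) (n m : ℤ) :
    sumd (fun j x y => a * f j x y) k n m = a * sumd f k n m := by
  unfold sumd
  simp only [mul_sum]

open Classical in
/-- the area of the births strictly below the square -/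
def bAM (A : ℕ → ℤ → ℤ → ℝ) (c ξ η : ℝ) (us ch : ℕ → ℤ → ℤ → Prop) (K k : ℕ) (n m : ℤ) : ℝ :=
  sumd (fun j a b => if stM A c ξ η us ch K j a b = some j then (4 : ℝ) ^ j else 0) k n m

open Classical in
/-- the energies of the change squares strictly below the square -/
def chE (A : ℕ → ℤ → ℤ → ℝ) (ch : ℕ → ℤ → ℤ → Prop) (k : ℕ) (n m : ℤ) : ℝ :=
  sumd (fun j a b => if ch j a b then E2 (iv j a) (iv j b) (A j) else 0) k n m

open Classical in
/-- the area of the change squares strictly below the square -/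
def chA (ch : ℕ → ℤ → ℤ → Prop) (k : ℕ) (n m : ℤ) : ℝ :=
  sumd (fun j a b => if ch j a b then (4 : ℝ) ^ j else 0) k n m

theorem bA_nonneg {A : ℤ → ℤ → ℝ} {us : ℕ → ℤ → ℤ → Prop} {L k : ℕ} (n m : ℤ) :
    0 ≤ bA A c ξ η us L k n m := by
  classical
  unfold bA
  exact sumd_nonneg (fun j a b => by split_ifs <;> positivity) k n m

theorem bAM_claim (hc : 0 ≤ c) (hξ : 0 < ξ) (hη : 0 < η)
    (hus : ∀ k n m, us k n m → us (k + 1) (n / 2) (m / 2)) (k : ℕ) (hk : k ≤ K) :
    ∀ n m : ℤ, bAM A c ξ η us ch K k n m ≤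
      bA (A (ep ch K k n m)) c ξ η (usE ch us K (ep ch K k n m)) (ep ch K k n m) k n m +
        (1 / η + 2 / ξ) * chE A ch k n m := by
  classical
  induction k with
  | zero =>
    intro n m
    have h1 : bAM A c ξ η us ch K 0 n m = 0 := rfl
    have h2 : chE A ch 0 n m = 0 := rfl
    rw [h1, h2, bA_zero, mul_zero, add_zero]
  | succ k ih =>
    intro n m
    have ih' := ih (by omega)
    have e1 : bAM A c ξ η us ch K (k + 1) n m = ch4 n m fun a b =>
        (if stM A c ξ η us ch K k a b = some k then (4 : ℝ) ^ k else 0) +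
          bAM A c ξ η us ch K k a b := sumd_succ _ k n m
    have e2 : chE A ch (k + 1) n m = ch4 n m fun a b =>
        (if ch k a b then E2 (iv k a) (iv k b) (A k) else 0) + chE A ch k a b :=
      sumd_succ _ k n m
    have e3 : (1 / η + 2 / ξ) * (ch4 n m fun a b =>
        (if ch k a b then E2 (iv k a) (iv k b) (A k) else 0) + chE A ch k a b) =
        ch4 n m fun a b => (1 / η + 2 / ξ) *
          ((if ch k a b then E2 (iv k a) (iv k b) (A k) else 0) + chE A ch k a b) := by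
      unfold ch4; ring
    have e4 : ∀ f g : ℤ → ℤ → ℝ, ch4 n m f + ch4 n m g = ch4 n m fun a b => f a b + g a b := by
      intro f g; unfold ch4; ring
    rw [e1, e2, bA_succ, e3, e4]
    refine ch4_mono fun a b ha hb => ?_
    have hC : 0 ≤ 1 / η + 2 / ξ := by positivity
    have hchE : 0 ≤ chE A ch k a b := by
      unfold chE
      exact sumd_nonneg (fun j a b => by split_ifs; exacts [E2_nonneg _ _ _, le_rfl]) k a b
    by_cases h : ch k a b
    · have h1 := ih' a b
      rw [ep_of_ch (by omega) h] at h1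
      have h2 := births_le (A := A k) (c := c) (ξ := ξ) (η := η) (us := usE ch us K k)
        (K := k) hc hξ hη (usE_up hus (by omega)) a b
      have h3 : stM A c ξ η us ch K k a b = st (A k) c ξ η (usE ch us K k) k k a b := by
        unfold stM
        rw [ep_of_ch (by omega) h]
      rw [h3, if_pos h]
      have h4 : 0 ≤ (if st (A (ep ch K (k + 1) n m)) c ξ η (usE ch us K (ep ch K (k + 1) n m))
          (ep ch K (k + 1) n m) k a b = some k then (4 : ℝ) ^ k else 0) := by
        split_ifs <;> positivity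
      have h5 := bA_nonneg (c := c) (ξ := ξ) (η := η) (A := A (ep ch K (k + 1) n m))
        (us := usE ch us K (ep ch K (k + 1) n m)) (L := ep ch K (k + 1) n m) (k := k) a b
      have e5 : (1 / η + 2 / ξ) * (E2 (iv k a) (iv k b) (A k) + chE A ch k a b) =
          (1 / η + 2 / ξ) * E2 (iv k a) (iv k b) (A k) + (1 / η + 2 / ξ) * chE A ch k a b := by
        ring
      rw [e5]
      linarith
    · have h1 := ih' a b
      have h2 : ep ch K k a b = ep ch K (k + 1) n m := by
        rw [ep_of_not (by omega) h, ha, hb]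
      rw [h2] at h1
      have h3 : stM A c ξ η us ch K k a b = st (A (ep ch K (k + 1) n m)) c ξ η
          (usE ch us K (ep ch K (k + 1) n m)) (ep ch K (k + 1) n m) k a b := by
        unfold stM
        rw [h2]
      rw [h3, if_neg h, zero_add]
      linarith

open Classical in
/-- **Packing of the births**, the root included. -/
theorem birthsM_le (hc : 0 ≤ c) (hξ : 0 < ξ) (hη : 0 < η)
    (hus : ∀ k n m, us k n m → us (k + 1) (n / 2) (m / 2)) (n m : ℤ) :
    (if stM A c ξ η us ch K K n m = some K then (4 : ℝ) ^ K else 0) +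
        bAM A c ξ η us ch K K n m ≤
      (1 / η + 2 / ξ) * (E2 (iv K n) (iv K m) (A K) + chE A ch K n m) := by
  have h1 := bAM_claim (A := A) (ch := ch) (K := K) hc hξ hη hus K le_rfl n m
  rw [ep_top] at h1
  have h2 := births_le (A := A K) (c := c) (ξ := ξ) (η := η) (us := usE ch us K K)
    (K := K) hc hξ hη (usE_up hus le_rfl) n m
  have h3 : stM A c ξ η us ch K K n m = st (A K) c ξ η (usE ch us K K) K K n m := by
    unfold stM
    rw [ep_top]
  rw [h3, mul_add]
  linarith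

theorem chE_le {Λ : ℝ} {k : ℕ} (hΛ : ∀ j < k, ∀ a b, E2 (iv j a) (iv j b) (A j) ≤ Λ * 4 ^ j)
    (n m : ℤ) : chE A ch k n m ≤ Λ * chA ch k n m := by
  classical
  unfold chE chA
  rw [← sumd_smul]
  refine sumd_mono (fun j hj a b => ?_) n m
  split_ifs
  · exact hΛ j hj a b
  · rw [mul_zero]

open Classical in
/-- **Packing of the births**, areas. -/
theorem birthsM_area (hc : 0 ≤ c) (hξ : 0 < ξ) (hη : 0 < η)
    (hus : ∀ k n m, us k n m → us (k + 1) (n / 2) (m / 2)) {Λ : ℝ}
    (hΛ : ∀ j ≤ K, ∀ a b, E2 (iv j a) (iv j b) (A j) ≤ Λ * 4 ^ j) (n m : ℤ) :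
    (if stM A c ξ η us ch K K n m = some K then (4 : ℝ) ^ K else 0) +
        bAM A c ξ η us ch K K n m ≤
      (1 / η + 2 / ξ) * Λ * (4 ^ K + chA ch K n m) := by
  refine (birthsM_le (A := A) (ch := ch) hc hξ hη hus n m).trans ?_
  have h1 := hΛ K le_rfl n m
  have h2 := chE_le (ch := ch) (fun j hj a b => hΛ j (le_of_lt hj) a b) n m
  have hC : 0 ≤ 1 / η + 2 / ξ := by positivity
  rw [mul_assoc, mul_add Λ]
  exact mul_le_mul_of_nonneg_left (add_le_add h1 h2) hC

end

end Vale.Agent.P141.H865
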