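import Vale.Agent.P141.H865.Ker
import Vale.Agent.P141.H297.KerA
import Vale.Agent.P141.H38.Pow

/-!
# P141, line W, end lemma (R5), part 2

* `RO_cut`: the residual kernel with the edges cut at scale `k`;
* `acP`, `alP`, `rsP`, `ppO`: every plane (birth, cell, shift) obeys the rules `PPr`;
* `winO`, `mem_winO`, `act_sub_winO` (third coordinate), `winO2`, `mem_winO2`, `act_sub_winO2`
  (second coordinate): the window sets of the family;
* `ker_cr`: the kernel of a finite index type cut to a set.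
-/

namespace Vale.Agent.P141.H865

open Finset
open Vale.Agent.P141.PL (Pt el iv ix mem_iv cb cx mem_cb ix_ix self_mem_iv)
open Vale.Agent.P141.PL.H315 (avg avg_nonneg Tri cube3 atm e12 e13 e23 mem_cube3)
open Vale.Agent.P141.H911
open Vale.Agent.P141.H585 (lvS mem_lvS lvS_anti mnA evt uT_eq23 cube3_eq)
open Vale.Agent.P141.H829 (ind ind_mem ind_not rst rs3)
open Vale.Agent.P141.H443 (comA comB cset mem_cset E2)
open Vale.Agent.P141.H97b (mcA mcB PPr winM mem_winM uF mem_uF wn mt wn_up self_mem_wn)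
open Vale.Agent.P141.H337 (cr cr_mem cr_not_mem ker ms)
open Vale.Agent.P141.H150

noncomputable section

/-! ### The residual with cut edges -/

/-- one shift: the raw edges may be replaced by the edges cut at scale `k` -/
theorem rs_cut {B : Bth} {G : ℕ → ℤ → ℤ → ℝ} {ex : ℕ → ℤ → ℤ → Prop} (hc : 0 ≤ B.cp)
    (hG : ∀ k n m, ¬ ex k n m → ∀ x ∈ iv k n, ∀ y ∈ iv k m, G k x y = G (k + 1) x y) (θ : Pt)
    {k : ℕ} (hk : k ≤ B.K) {n m x1 x2 x3 : ℤ} (h2 : x2 ∈ iv k n) (h3 : x3 ∈ iv k m)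
    (h1 : al1 B θ k x1) :
    (uT B.K B.q θ B.v).1 (x1, x2) * (uT B.K B.q θ B.v).2.1 (x1, x3) * rsO B G ex θ k x2 x3 =
      (uT B.K B.q θ (B.mn k)).1 (x1, x2) * (uT B.K B.q θ (B.mn k)).2.1 (x1, x3) *
        rsO B G ex θ k x2 x3 := by
  have e1 := H297.atom_ker (A := kA B G θ) (ξ := B.xi) (η := B.et) (us := fun _ _ _ => True)
    (ev := evO B ex θ) (θ := B.th) (E1 := B.S1) (E2 := B.S2) (E3 := B.S3) (K := B.K) (v := B.v)
    hc B.q θ (G := G) (fun _ _ _ => rfl) (kA_eq hG θ) (fun _ _ _ h => Or.inl h)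
    (fun _ _ _ h => Or.inr (Or.inl h)) hk h1 h2 h3
  have e2 := Mv.aliveH_eq (A := kA B G θ) (ξ := B.xi) (η := B.et)
    (us := fun _ _ _ => True) (ev := evO B ex θ) hc (kA_eq hG θ) hk h2 h3
  have e3 := edge_cut B θ k x1 x2 x3
  unfold al1 at h1
  rw [ind_mem h1, one_mul] at e3
  unfold atm e12 e13 e23 at e3
  simp only at e3
  have e4 : (∑ i ∈ Mv.actH (kA B G θ) B.cp B.xi B.et (fun _ _ _ => True) (evO B ex θ) B.K k n m,
        ((uT B.K B.q θ B.v).1 (x1, x2) * comA (kA B G θ i.1) B.cp i x2) *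
          ((uT B.K B.q θ B.v).2.1 (x1, x3) * comB (kA B G θ i.1) B.cp i x3)) =
      (uT B.K B.q θ B.v).1 (x1, x2) * (uT B.K B.q θ B.v).2.1 (x1, x3) *
        (kA B G θ k x2 x3 - rsO B G ex θ k x2 x3) := by
    unfold rsO
    rw [e2, mul_sum]
    exact sum_congr rfl fun i _ => by ring
  rw [e4] at e1
  have e5 : kA B G θ k x2 x3 = (uT B.K B.q θ (B.mn k)).2.2 (x2, x3) * G k x2 x3 := rfl
  rw [e5] at e1
  have e6 : (uT B.K B.q θ (B.mn k)).1 (x1, x2) * (uT B.K B.q θ (B.mn k)).2.1 (x1, x3) *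
      ((uT B.K B.q θ (B.mn k)).2.2 (x2, x3) * G k x2 x3) =
      (uT B.K B.q θ B.v).1 (x1, x2) * (uT B.K B.q θ B.v).2.1 (x1, x3) *
        ((uT B.K B.q θ (B.mn k)).2.2 (x2, x3) * G k x2 x3) := by
    linear_combination (G k x2 x3) * e3
  have e7 : (uT B.K B.q θ (B.mn k)).1 (x1, x2) * (uT B.K B.q θ (B.mn k)).2.1 (x1, x3) *
      ((uT B.K B.q θ (B.mn k)).2.2 (x2, x3) * G k x2 x3) =
      (uT B.K B.q θ B.v).1 (x1, x2) * (uT B.K B.q θ B.v).2.1 (x1, x3) *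
        ((uT B.K B.q θ (B.mn k)).2.2 (x2, x3) * G k x2 x3 - rsO B G ex θ k x2 x3) +
      (uT B.K B.q θ (B.mn k)).1 (x1, x2) * (uT B.K B.q θ (B.mn k)).2.1 (x1, x3) *
        rsO B G ex θ k x2 x3 := e1
  linear_combination e7 - e6

variable {ι : Type*}

open Classical in
/-- **The residual kernel with cut edges.** -/
theorem RO_cut {c : Pt} {B : ι → Bth} {G : ℕ → ℤ → ℤ → ℝ} {ex : ℕ → ℤ → ℤ → Prop}
    {I : Finset ι} (hc : ∀ i ∈ I, 0 ≤ (B i).cp)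
    (hG : ∀ k n m, ¬ ex k n m → ∀ x ∈ iv k n, ∀ y ∈ iv k m, G k x y = G (k + 1) x y)
    {k : ℕ} {n m x1 x2 x3 : ℤ} (h2 : x2 ∈ iv k n) (h3 : x3 ∈ iv k m) :
    RO c B G ex I x1 k n m x2 x3 =
      ∑ i ∈ I.filter (fun i => k ≤ (B i).K), ((B i).a * (B i).b) *
        ∑ θ ∈ Th c (B i).K (ptO k x1 n m) (B i).q,
          H38.ga12 (B i).K (B i).q (B i).th (B i).S1 (B i).S2 (B i).S3 (B i).v θ k x1 x2 *
            H38.ga13 (B i).K (B i).q (B i).th (B i).S1 (B i).S2 (B i).S3 (B i).v θ k x1 x3 *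
            rsO (B i) G ex θ k x2 x3 := by
  unfold RO resK H38.ga12 H38.ga13
  refine sum_congr rfl fun i hi => ?_
  rw [mem_filter] at hi
  congr 1
  refine sum_congr rfl fun θ _ => ?_
  simp only
  by_cases h1 : al1 (B i) θ k x1
  · rw [if_pos h1]
    exact rs_cut (hc i hi.1) hG θ hi.2 h2 h3 h1
  · rw [if_neg h1, mul_zero, H297.uT12_off (B i).q θ h1]
    ring

/-! ### The rules of the planes -/

/-- the active components of the plane `p`, inside its cell -/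
def acP (B : ι → Bth) (G : ℕ → ℤ → ℤ → ℝ) (ex : ℕ → ℤ → ℤ → Prop) (p : ι × Pt × Pt) (k : ℕ)
    (n m : ℤ) : Finset (ℕ × ℤ × ℤ) := by
  classical
  exact if k ≤ (B p.1).K ∧ ix ((B p.1).K - k) n = p.2.1.2.1 ∧ ix ((B p.1).K - k) m = p.2.1.2.2
    then acO (B p.1) G ex p.2.2 k n m else ∅

theorem mem_acP {B : ι → Bth} {G : ℕ → ℤ → ℤ → ℝ} {ex : ℕ → ℤ → ℤ → Prop} {p : ι × Pt × Pt}
    {k : ℕ} {n m : ℤ} {j : ℕ × ℤ × ℤ} : j ∈ acP B G ex p k n m ↔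
      (k ≤ (B p.1).K ∧ ix ((B p.1).K - k) n = p.2.1.2.1 ∧ ix ((B p.1).K - k) m = p.2.1.2.2) ∧
        j ∈ acO (B p.1) G ex p.2.2 k n m := by
  unfold acP
  split_ifs with h
  · exact ⟨fun h1 => ⟨h, h1⟩, fun h1 => h1.2⟩
  · exact ⟨fun h1 => absurd h1 (notMem_empty _), fun h1 => absurd h1.1 h⟩

/-- the birth squares of the plane `p` -/
def rsP (B : ι → Bth) (G : ℕ → ℤ → ℤ → ℝ) (ex : ℕ → ℤ → ℤ → Prop) (p : ι × Pt × Pt) (k : ℕ)
    (n m : ℤ) : Prop :=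
  (k ≤ (B p.1).K ∧ ix ((B p.1).K - k) n = p.2.1.2.1 ∧ ix ((B p.1).K - k) m = p.2.1.2.2) ∧
    sO (B p.1) G ex p.2.2 k n m = some k

/-- the alive pairs of the plane `p` in the tree of the root `(L; R, S)` -/
def alP (B : ι → Bth) (L : ℕ) (R S : ℤ) (p : ι × Pt × Pt) (k : ℕ) (x1 n m : ℤ) : Prop :=
  (n ∈ iv (L - k) R ∧ m ∈ iv (L - k) S) ∧ al1 (B p.1) p.2.2 (min k (B p.1).K) x1 ∧
    ix (B p.1).K x1 = p.2.1.1

theorem ix_step {K k : ℕ} (hk : k < K) (n : ℤ) : ix (K - (k + 1)) (n / 2) = ix (K - k) n := by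
  have h : K - k = 1 + (K - (k + 1)) := by omega
  rw [h, ← ix_ix]
  unfold ix
  norm_num

theorem iv_step {L k : ℕ} (hk : k < L) {n R : ℤ} (h : n ∈ iv (L - k) R) :
    n / 2 ∈ iv (L - (k + 1)) R := by
  rw [mem_iv] at h ⊢
  rw [ix_step hk, h]

/-- **Every plane obeys the rules.** -/
theorem ppO (B : ι → Bth) (G : ℕ → ℤ → ℤ → ℝ) (ex : ℕ → ℤ → ℤ → Prop) (L : ℕ) (R S : ℤ)
    (p : ι × Pt × Pt) (hL : (B p.1).K ≤ L) :
    PPr (acP B G ex p) cset (fun j => j.1) (rsP B G ex p) (alP B L R S p) L R S where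
  le := by
    intro k _ n m j hj
    rw [mem_acP] at hj
    have h1 := Mv.st_bounds hj.1.1 n m (Mv.actH_scale hj.2)
    exact ⟨h1.1, h1.2.trans hL⟩
  born := by
    intro k _ n m j hj hr
    rw [mem_acP] at hj
    have h1 := Mv.actH_scale hj.2
    rw [hr] at h1
    refine ⟨⟨hj.1, h1⟩, ?_⟩
    have h2 := hj.2
    unfold acO at h2
    rw [Mv.actH_some h1, Nat.sub_self] at h2
    have e : ∀ a : ℤ, ix 0 a = a := fun a => PL.ix_zero a
    rwa [e, e] at h2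
  up := by
    intro k _ n m j hj hr
    rw [mem_acP] at hj ⊢
    have h1 := Mv.st_bounds hj.1.1 n m (Mv.actH_scale hj.2)
    have h2 : k < (B p.1).K := lt_of_lt_of_le hr h1.2
    refine ⟨⟨h2, ?_, ?_⟩, Mv.actH_up h2 hj.2 hr⟩
    · rw [ix_step h2]; exact hj.1.2.1
    · rw [ix_step h2]; exact hj.1.2.2
  alup := by
    rintro k hk x1 n m ⟨⟨h1, h2⟩, h3, h4⟩
    refine ⟨⟨iv_step hk h1, iv_step hk h2⟩, ?_, h4⟩
    unfold al1 at h3 ⊢
    exact lvS_anti (by omega) h3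
  root := fun k _ x1 n m h => h.1

/-! ### The window sets -/

/-- the planes of a family of births with cells in a set -/
def QO (c : Pt) (B : ι → Bth) (I : Finset ι) (C : ι → Finset Pt) : Finset (ι × Pt × Pt) := by
  classical
  exact I.biUnion fun i => (C i).biUnion fun e =>
    (Th c (B i).K (2 ^ (B i).K * e.1, 2 ^ (B i).K * e.2.1, 2 ^ (B i).K * e.2.2) (B i).q).image
      fun θ => (i, e, θ)

theorem mem_QO {c : Pt} {B : ι → Bth} {I : Finset ι} {C : ι → Finset Pt} {p : ι × Pt × Pt} :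
    p ∈ QO c B I C ↔ p.1 ∈ I ∧ p.2.1 ∈ C p.1 ∧ p.2.2 ∈ Th c (B p.1).K
      (2 ^ (B p.1).K * p.2.1.1, 2 ^ (B p.1).K * p.2.1.2.1, 2 ^ (B p.1).K * p.2.1.2.2)
      (B p.1).q := by
  classical
  unfold QO
  simp only [mem_biUnion, mem_image]
  constructor
  · rintro ⟨i, hi, e, he, θ, hθ, rfl⟩
    exact ⟨hi, he, hθ⟩
  · rintro ⟨hi, he, hθ⟩
    exact ⟨p.1, hi, p.2.1, he, p.2.2, hθ, rfl⟩

theorem cx_corner (K : ℕ) (e : Pt) : cx K (2 ^ K * e.1, 2 ^ K * e.2.1, 2 ^ K * e.2.2) = e := by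
  unfold cx
  simp only [ix_mul]

/-- the planes over a box are in the family when their cells are -/
theorem plO_sub_QO {c : Pt} {B : ι → Bth} {I : Finset ι} {C : ι → Finset Pt} {x1 : ℤ} {k : ℕ}
    {n m : ℤ} (hC : ∀ i ∈ I, k ≤ (B i).K → cx (B i).K (ptO k x1 n m) ∈ C i) :
    plO c B I x1 k n m ⊆ QO c B I C := by
  intro p hp
  rw [mem_plO] at hp
  rw [mem_QO]
  refine ⟨hp.1, ?_, ?_⟩
  · rw [hp.2.2.1]; exact hC p.1 hp.1 hp.2.1
  · have h := hp.2.2.2.1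
    rwa [Th_congr c (B p.1).q (p' := (2 ^ (B p.1).K * p.2.1.1, 2 ^ (B p.1).K * p.2.1.2.1,
      2 ^ (B p.1).K * p.2.1.2.2)) (by rw [cx_corner, hp.2.2.1])] at h

section win

open Classical in
/-- **the window sets** at the fibre `(x0, x1)` of the tree of the third coordinate -/
def winO (c : Pt) (B : ι → Bth) (G : ℕ → ℤ → ℤ → ℝ) (ex : ℕ → ℤ → ℤ → Prop) (I : Finset ι)
    (C : ι → Finset Pt) (L : ℕ) (R S : ℤ) (o x0 x1 : ℤ) (k : ℕ) (b : ℤ) :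
    Finset ((ι × Pt × Pt) × (ℕ × ℤ × ℤ)) :=
  uF (QO c B I C) eO (fun p => winM (acP B G ex p) (alP B L R S p) o x0 x1) k b

/-- the window sets are unions of active sets of boxes -/
theorem mem_winO {c : Pt} {B : ι → Bth} {G : ℕ → ℤ → ℤ → ℝ} {ex : ℕ → ℤ → ℤ → Prop}
    {I : Finset ι} {C : ι → Finset Pt} {L : ℕ} {R S o x0 x1 : ℤ} {k : ℕ} {b : ℤ}
    {w : (ι × Pt × Pt) × (ℕ × ℤ × ℤ)} :
    w ∈ winO c B G ex I C L R S o x0 x1 k b ↔ ∃ n ∈ wn o x0 x1 k b,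
      (n ∈ iv (L - k) R ∧ b ∈ iv (L - k) S) ∧ w.1.2.1 ∈ C w.1.1 ∧
        w ∈ actO c B G ex I x1 k n b := by
  classical
  unfold winO
  rw [mem_uF]
  constructor
  · rintro ⟨p, hp, j, hj, rfl⟩
    obtain ⟨n, hn, ⟨hr, h1, h2⟩, h3⟩ := mem_winM.1 hj
    rw [mem_acP] at h3
    obtain ⟨⟨h4, h5, h6⟩, h7⟩ := h3
    rw [mem_QO] at hp
    have e1 : p.2.1 = cx (B p.1).K (ptO k x1 n b) := by
      rw [cx_ptO' h4, h5, h6, h2]
    refine ⟨n, hn, hr, hp.2.1, ?_⟩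
    rw [mem_actO]
    refine ⟨?_, h7⟩
    rw [mem_plO]
    refine ⟨hp.1, h4, e1, ?_, ?_⟩
    · have h := hp.2.2
      rwa [Th_congr c (B p.1).q (p' := ptO k x1 n b) (by rw [cx_corner, e1])] at h
    · rw [Nat.min_eq_left h4] at h1
      exact h1
  · rintro ⟨n, hn, hr, hC, hw⟩
    rw [mem_actO] at hw
    obtain ⟨h1, h2⟩ := hw
    rw [mem_plO] at h1
    obtain ⟨h3, h4, h5, h6, h7⟩ := h1
    refine ⟨w.1, ?_, w.2, ?_, rfl⟩
    · rw [mem_QO]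
      refine ⟨h3, hC, ?_⟩
      rwa [Th_congr c (B w.1.1).q (p' := (2 ^ (B w.1.1).K * w.1.2.1.1,
        2 ^ (B w.1.1).K * w.1.2.1.2.1, 2 ^ (B w.1.1).K * w.1.2.1.2.2))
        (by rw [cx_corner, h5])] at h6
    · have h8 := h5
      rw [cx_ptO' h4] at h8
      refine mem_winM.2 ⟨n, hn, ⟨hr, ?_, ?_⟩, ?_⟩
      · rw [Nat.min_eq_left h4]; exact h7
      · rw [h8]
      · rw [mem_acP]
        refine ⟨⟨h4, ?_, ?_⟩, h2⟩
        · rw [h8]
        · rw [h8]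

/-- the active set of the matched box is in the window set -/
theorem act_sub_winO {c : Pt} {B : ι → Bth} {G : ℕ → ℤ → ℤ → ℝ} {ex : ℕ → ℤ → ℤ → Prop}
    {I : Finset ι} {C : ι → Finset Pt} {L : ℕ} {R S o x0 x1 : ℤ} {k : ℕ} {n b : ℤ}
    (hn : n ∈ wn o x0 x1 k b) (hr : n ∈ iv (L - k) R) (hs : b ∈ iv (L - k) S)
    (hC : ∀ i ∈ I, k ≤ (B i).K → cx (B i).K (ptO k x1 n b) ∈ C i) :
    actO c B G ex I x1 k n b ⊆ winO c B G ex I C L R S o x0 x1 k b := by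
  intro w hw
  rw [mem_winO]
  refine ⟨n, hn, ⟨hr, hs⟩, ?_, hw⟩
  rw [mem_actO] at hw
  have h1 := mem_plO.1 hw.1
  rw [h1.2.2.1]
  exact hC _ h1.1 h1.2.1

open Classical in
/-- **the window sets** at the fibre `(x0, x1)` of the tree of the second coordinate -/
def winO2 (c : Pt) (B : ι → Bth) (G : ℕ → ℤ → ℤ → ℝ) (ex : ℕ → ℤ → ℤ → Prop) (I : Finset ι)
    (C : ι → Finset Pt) (L : ℕ) (R S : ℤ) (o x0 x1 : ℤ) (k : ℕ) (b : ℤ) :
    Finset ((ι × Pt × Pt) × (ℕ × ℤ × ℤ)) :=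
  uF (QO c B I C) eO (fun p => winM (fun k m n => acP B G ex p k n m)
    (fun k x1 m n => alP B L R S p k x1 n m) o x0 x1) k b

/-- the window sets are unions of active sets of boxes -/
theorem mem_winO2 {c : Pt} {B : ι → Bth} {G : ℕ → ℤ → ℤ → ℝ} {ex : ℕ → ℤ → ℤ → Prop}
    {I : Finset ι} {C : ι → Finset Pt} {L : ℕ} {R S o x0 x1 : ℤ} {k : ℕ} {b : ℤ}
    {w : (ι × Pt × Pt) × (ℕ × ℤ × ℤ)} :
    w ∈ winO2 c B G ex I C L R S o x0 x1 k b ↔ ∃ n ∈ wn o x0 x1 k b,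
      (b ∈ iv (L - k) R ∧ n ∈ iv (L - k) S) ∧ w.1.2.1 ∈ C w.1.1 ∧
        w ∈ actO c B G ex I x1 k b n := by
  classical
  unfold winO2
  rw [mem_uF]
  constructor
  · rintro ⟨p, hp, j, hj, rfl⟩
    obtain ⟨n, hn, ⟨hr, h1, h2⟩, h3⟩ := mem_winM.1 hj
    rw [mem_acP] at h3
    obtain ⟨⟨h4, h5, h6⟩, h7⟩ := h3
    rw [mem_QO] at hp
    have e1 : p.2.1 = cx (B p.1).K (ptO k x1 b n) := by
      rw [cx_ptO' h4, h5, h6, h2]
    refine ⟨n, hn, hr, hp.2.1, ?_⟩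
    rw [mem_actO]
    refine ⟨?_, h7⟩
    rw [mem_plO]
    refine ⟨hp.1, h4, e1, ?_, ?_⟩
    · have h := hp.2.2
      rwa [Th_congr c (B p.1).q (p' := ptO k x1 b n) (by rw [cx_corner, e1])] at h
    · rw [Nat.min_eq_left h4] at h1
      exact h1
  · rintro ⟨n, hn, hr, hC, hw⟩
    rw [mem_actO] at hw
    obtain ⟨h1, h2⟩ := hw
    rw [mem_plO] at h1
    obtain ⟨h3, h4, h5, h6, h7⟩ := h1
    refine ⟨w.1, ?_, w.2, ?_, rfl⟩
    · rw [mem_QO]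
      refine ⟨h3, hC, ?_⟩
      rwa [Th_congr c (B w.1.1).q (p' := (2 ^ (B w.1.1).K * w.1.2.1.1,
        2 ^ (B w.1.1).K * w.1.2.1.2.1, 2 ^ (B w.1.1).K * w.1.2.1.2.2))
        (by rw [cx_corner, h5])] at h6
    · have h8 := h5
      rw [cx_ptO' h4] at h8
      refine mem_winM.2 ⟨n, hn, ⟨hr, ?_, ?_⟩, ?_⟩
      · rw [Nat.min_eq_left h4]; exact h7
      · rw [h8]
      · rw [mem_acP]
        refine ⟨⟨h4, ?_, ?_⟩, h2⟩
        · rw [h8]
        · rw [h8]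

/-- the active set of the matched box is in the window set -/
theorem act_sub_winO2 {c : Pt} {B : ι → Bth} {G : ℕ → ℤ → ℤ → ℝ} {ex : ℕ → ℤ → ℤ → Prop}
    {I : Finset ι} {C : ι → Finset Pt} {L : ℕ} {R S o x0 x1 : ℤ} {k : ℕ} {n b : ℤ}
    (hn : n ∈ wn o x0 x1 k b) (hr : b ∈ iv (L - k) R) (hs : n ∈ iv (L - k) S)
    (hC : ∀ i ∈ I, k ≤ (B i).K → cx (B i).K (ptO k x1 b n) ∈ C i) :
    actO c B G ex I x1 k b n ⊆ winO2 c B G ex I C L R S o x0 x1 k b := by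
  intro w hw
  rw [mem_winO2]
  refine ⟨n, hn, ⟨hr, hs⟩, ?_, hw⟩
  rw [mem_actO] at hw
  have h1 := mem_plO.1 hw.1
  rw [h1.2.2.1]
  exact hC _ h1.1 h1.2.1

end win

/-! ### Finite index types -/

/-- the kernel cut to a set of components -/
theorem ker_cr {Ω : Type*} [Fintype Ω] (A : Finset Ω) (a b : Ω → ℤ → ℝ) (x y : ℤ) :
    ker (cr A a) (cr A b) x y = ∑ w ∈ A, a w x * b w y := by
  classical
  unfold ker
  have h : ∀ w, cr A a w x * cr A b w y = if w ∈ A then a w x * b w y else 0 := by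
    intro w
    split_ifs with hw
    · rw [cr_mem a hw, cr_mem b hw]
    · rw [cr_not_mem a hw, cr_not_mem b hw, zero_mul]
  rw [sum_congr rfl fun w _ => h w, sum_ite_mem, univ_inter]

/-- the kernel of a subtype -/
theorem ker_sub {Ω : Type*} [DecidableEq Ω] {S A : Finset Ω} (h : A ⊆ S) (a b : Ω → ℤ → ℝ)
    (x y : ℤ) :
    ker (cr (A.subtype (· ∈ S)) fun w : S => a w) (cr (A.subtype (· ∈ S)) fun w : S => b w) x y =
      ∑ w ∈ A, a w x * b w y := by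
  rw [ker_cr]
  exact sum_subtype_of_mem (fun w => a w x * b w y) fun w hw => h hw

/-- the mass of a subtype -/
theorem ms_sub {Ω : Type*} [DecidableEq Ω] {S A : Finset Ω} (h : A ⊆ S) (c : Ω → ℤ → ℝ)
    (J : Finset ℤ) : ms (fun w : S => c w) (A.subtype (· ∈ S)) J = ms c A J := by
  unfold ms
  exact sum_subtype_of_mem (fun w => avg J fun x => c w x ^ 2) fun w hw => h hw

end

end Vale.Agent.P141.H865
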